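import Vale.Agent.P287D.Ba.Nb
import Vale.Agent.P287D.Ba.I
import Vale.Agent.P287D.Ba.Cn
import Vale.Agent.P287D.Pr.Neg
import Vale.Agent.P287D.Z.Sig

/-!
# P287D: finite generation of adjoint rings of b-divisors
-/

set_option linter.all false

open Set Filter Topology
open Vale.Agent.P297 (Place)
open Vale.Agent.P277Z Vale.Agent.P277Z.FI

noncomputable section

namespace Vale.Agent.P287D.Ba.Fg

variable {n : ℕ} {K : Type} [Field K] [Algebra ℂ K] {M M' : Mdl n 0 K}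

/-- the lemma of Kodaira on the model `M` -/
def Kd (M : Mdl n 0 K) (X : BD K) (E : Div K) : Prop :=
  ∃ D, M.Dv D ∧ X = bar M D ∧ M.Nef D ∧ M.Dv E ∧ 0 ≤ E ∧ M.Amp (D - E)

theorem Kd.up (hM : M.Proj) (hM' : M'.Proj) (m : Mod M' M) {X : BD K} {E : Div K}
    (h : Kd M X E) : ∃ E', Kd M' X E' ∧ ∀ Q, E' Q ≠ 0 → E Q ≠ 0 ∨ Q ∈ Exc M' M := by
  obtain ⟨D, a1, a2, a3, a4, a5, a6⟩ := h
  have hB := hbir hM hM' m
  obtain ⟨H, d1, -, d2, d3⟩ := hB.amp
  obtain ⟨δ, e1, e2⟩ := d3 _ a6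
  refine ⟨M.pull M' E + δ • H, ⟨M.pull M' D, dv_pull _, a2.trans (bar_pull hM hM' m D).symm,
    hB.nef D a3, dv_add (dv_pull _) (FI.dv_smul (fun Q hQ => (d1.le hQ).1) δ),
    add_nonneg (pull_nonneg hB a5) (smul_nonneg e1.le d2), ?_⟩, fun Q hQ => ?_⟩
  · rw [← pl_apply hB (D - E), map_sub, pl_apply, pl_apply] at e2
    rwa [← sub_sub]
  · by_cases k : H Q = 0
    · exact pull_supp (hloc hM) hB E (by simpa [k] using hQ)
    · exact Or.inr (d1.le (Finsupp.mem_support_iff.2 k))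

theorem Kd.amp (hM : M.Proj) {X : BD K} {D E : Div K} (h : Kd M X E) (hD : M.Dv D)
    (e : X = bar M D) {ε : ℝ} (h0 : 0 < ε) (h1 : ε ≤ 1) : M.Amp (D - ε • E) := by
  obtain ⟨D', a1, a2, a3, -, -, a6⟩ := h
  obtain rfl := bar_inj hM a1 hD (a2.symm.trans e)
  have := F5.nef_smul (hpos hM) a3 (sub_nonneg.2 h1) _ ((hpos hM).smul _ ε h0 a6)
  convert this using 1
  module

theorem kd_ex {X : BD K} (hX : Nef X) (hb : Big X) (M : Mdl n 0 K) (hM : M.Proj) :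
    ∃ (M' : Mdl n 0 K) (_ : Mod M' M), M'.Proj ∧ ∃ E, Kd M' X E := by
  obtain ⟨M', m, U, D, E, a, -, -, -, -, -, -, b1, b2, -, b3, b4, b5, -, b6⟩ :=
    Nb.nb hM hX hb finite_empty (fun _ h => h.elim) finite_empty finite_empty
  exact ⟨M', m, a, E, D, b1, b2, b3, b4, b5, by simpa using b6 1 one_pos le_rfl⟩

/-- **NBF**: a common log resolution of finitely many nef and big b-divisors -/
theorem nbF (hK : FF K n) {ι κ : Type*} [Finite ι] [Finite κ] {X : ι → BD K}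
    (hX : ∀ i, Nef (X i) ∧ Big (X i)) {β : κ → BD K} (hc : ∀ i, β i ∈ Car K) :
    ∃ (M : Mdl n 0 K) (U : Set (Place K)) (E : ι → Div K) (D : κ → Div K), M.Proj ∧ U.Finite ∧
      M.Snc U ∧ (∀ Q, KM M Q ≠ 0 → Q ∈ U) ∧ (∀ i, Kd M (X i) (E i) ∧ ∀ Q, E i Q ≠ 0 → Q ∈ U) ∧
      ∀ i, M.Dv (D i) ∧ β i = bar M (D i) ∧ ((D i).support : Set (Place K)) ⊆ U ∧
        (β i ∈ CarZ K → IsInt (D i)) := by
  obtain ⟨M₀, h₀⟩ := Bm.exists_mdl hK
  obtain ⟨M₁, -, h₁, k₁⟩ := simul (p := fun i M => ∃ E, Kd M (X i) E) finite_univ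
    (fun i _ M M' a b m ⟨E, c⟩ => (c.up a b m).imp fun _ d => d.1)
    (fun i _ => kd_ex (hX i).1 (hX i).2) h₀
  choose E hE using fun i => k₁ i trivial
  obtain ⟨M, m, U, D, h, a, b, c, -, d, e⟩ := comF h₁ hc finite_empty
    ((KM M₁).support.finite_toSet.union (finite_iUnion fun i => (E i).support.finite_toSet))
  choose E' h1 h2 using fun i => (hE i).up h₁ h m
  refine ⟨M, U, E', D, h, a, b, fun Q hQ => ?_, fun i => ⟨h1 i, fun Q hQ => ?_⟩, e⟩
  · have p : M.Pr Q := KM_dv h Q (Finsupp.mem_support_iff.2 hQ)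
    by_cases k : M₁.Pr Q
    · obtain ⟨P, rfl⟩ := Bm.pl_of_pr h p
      rw [← KM_pr h p, KM_pr h₁ k] at hQ
      exact d _ (.inl (Finsupp.mem_support_iff.2 hQ)) p
    · exact c ⟨p, k⟩
  · obtain ⟨_, -, -, -, k, -⟩ := h1 i
    exact (h2 i Q hQ).elim (fun g => d Q (.inr (mem_iUnion.2 ⟨i, Finsupp.mem_support_iff.2 g⟩))
      (k Q (Finsupp.mem_support_iff.2 hQ))) fun g => c g

/-- room below one -/
theorem room {B E : Div K} (h : ∀ Q, B Q < 1) :
    ∃ ε : ℝ, 0 < ε ∧ ε ≤ 1 ∧ ∀ Q, (B + ε • E) Q ≤ 1 := by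
  have k : ∀ Q ∈ E.support, ∀ᶠ ε : ℝ in 𝓝 0, B Q + ε * E Q < 1 := fun Q _ =>
    (show ContinuousAt (fun ε : ℝ => B Q + ε * E Q) 0 by fun_prop).eventually_lt continuousAt_const
      (by simpa using h Q)
  obtain ⟨ε, ⟨a, b⟩, c⟩ := (((((eventually_all_finset _).2 k).and
    (eventually_le_nhds one_pos)).filter_mono (nhdsWithin_le_nhds (s := Ioi 0))).and
      self_mem_nhdsWithin).exists
  refine ⟨ε, c, b, fun Q => ?_⟩
  by_cases e : Q ∈ E.support
  · exact (a Q e).le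
  · simpa [Finsupp.notMem_support_iff.1 e] using (h Q).le

/-- the round up of the negative part -/
def up (D : Div K) : Div K := D.mapRange (fun r => ((max 0 ⌈-r⌉ : ℤ) : ℝ)) (by simp)

theorem up_apply (D : Div K) (Q : Place K) : up D Q = ((max 0 ⌈-D Q⌉ : ℤ) : ℝ) := rfl

theorem up_nonneg (D : Div K) : 0 ≤ up D := fun Q => Int.cast_nonneg (le_max_left _ _)

theorem up_zero {D : Div K} {Q : Place K} (h : 0 ≤ D Q) : up D Q = 0 := by
  rw [up_apply, max_eq_left (Int.ceil_nonpos.2 (neg_nonpos.2 h)), Int.cast_zero]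

theorem up_bd {D : Div K} {Q : Place K} {m : ℝ} (hm : 1 ≤ m) (h : D Q < m) :
    0 ≤ D Q + up D Q ∧ D Q + up D Q < m := by
  rcases le_total 0 (D Q) with k | k
  · rw [up_zero k, add_zero]; exact ⟨k, h⟩
  · rw [up_apply, max_eq_right (Int.ceil_nonneg (neg_nonneg.2 k))]
    exact ⟨by linarith [Int.le_ceil (-D Q)], by linarith [Int.ceil_lt_add_one (-D Q)]⟩

/-- adjoint divisors on a model -/
theorem adj {G X E : Div K} {U : Set (Place K)} (hM : M.Proj) (hG : M.Dv G) (hX : M.Dv X)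
    (h1 : ∀ Q, KM M Q ≠ 0 → Q ∈ U) (h2 : (G.support : Set (Place K)) ⊆ U)
    (h3 : ∀ Q, E Q ≠ 0 → Q ∈ U) (hk : Klt n (bar M G)) (hE : Kd M (bar M X) E) {m : ℝ}
    (hm : 1 ≤ m) : Adj M (KM M) U (m • (G + X) + up (m • (G - KM M))) := by
  have m0 : 0 < m := one_pos.trans_le hm
  have lt : ∀ Q, (m • (G - KM M)) Q < m := fun Q => by
    by_cases p : M.Pr Q
    · obtain ⟨P, rfl⟩ := Bm.pl_of_pr hM p
      have := hk P
      rw [dsc, Pi.sub_apply, KM_pr hM p, bar_pr hM p] at this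
      rw [Finsupp.smul_apply, Finsupp.sub_apply, smul_eq_mul]
      nlinarith
    · simpa [dv_iff.1 hG Q p, dv_iff.1 (KM_dv hM) Q p] using m0
  obtain ⟨ε, e0, e1, e2⟩ := room (B := m⁻¹ • (m • (G - KM M) + up (m • (G - KM M)))) (E := E)
    fun Q => by
      rw [Finsupp.smul_apply, smul_eq_mul, inv_mul_lt_iff₀ m0, mul_one]
      exact (up_bd hm (lt Q)).2
  have E0 : 0 ≤ E := let ⟨_, _, _, _, _, a, _⟩ := hE; a
  refine ⟨m, m0, _, fun Q hQ => by_contra fun k => Finsupp.mem_support_iff.1 hQ ?_,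
    fun Q => ⟨add_nonneg (mul_nonneg (inv_pos.2 m0).le (up_bd hm (lt Q)).1)
      (mul_nonneg e0.le (E0 Q)), e2 Q⟩, ?_⟩
  · have a : (m • (G - KM M)) Q = 0 := by
      simp [of_not_not (mt (h1 Q) k), Finsupp.notMem_support_iff.1 (mt (@h2 Q) k)]
    rw [Finsupp.add_apply, Finsupp.smul_apply, Finsupp.add_apply, up_zero a.ge, a]
    simp [of_not_not (mt (h3 Q) k)]
  · convert hE.amp hM hX rfl e0 e1 using 1
    simp only [smul_add, inv_smul_smul₀ m0.ne']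
    abel

theorem den {ι : Type} [Fintype ι] {D : ι → BD K} (h : ∀ i, CarQ (D i)) :
    ∃ m : ℕ, 0 < m ∧ ∀ i, (m : ℝ) • D i ∈ CarZ K := by
  classical
  choose m a b using h
  refine ⟨∏ i, m i, Finset.prod_pos fun i _ => a i, fun i => ?_⟩
  rw [← Finset.prod_erase_mul _ _ (Finset.mem_univ i), Nat.cast_mul, mul_smul]
  exact CarZ.nsmul (b i) _

/-- **FGU** -/
theorem fgu (hR : RES) : FGU := by
  classical
  intro n K _ _ hK ι _ Λ D Γ hΛ bΛ h
  obtain ⟨m, m0, hm⟩ := den fun i => (h i).1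
  have m1 : (1 : ℝ) ≤ m := Nat.one_le_cast.2 m0
  obtain ⟨M, U, E, W, hM, fU, sU, kU, hE, hW⟩ := nbF hK (fun i => (h i).2.2.2.2.2)
    (β := fun o : Option (ι ⊕ ι) => o.elim Λ (Sum.elim Γ fun i => (m : ℝ) • D i))
    (by
      rintro (_ | i | i)
      exacts [hΛ.car, (h i).2.2.1, CarZ.car (hm i)])
  have eΛ : Λ = bar M (W none) := (hW none).2.1
  let G i := W (some (.inl i))
  let L i := W (some (.inr i))
  have eG : ∀ i, Γ i = bar M (G i) := fun i => (hW (some (.inl i))).2.1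
  have eL : ∀ i, (m : ℝ) • D i = bar M (L i) := fun i => (hW (some (.inr i))).2.1
  have dG : ∀ i, M.Dv (G i) := fun i => (hW _).1
  have dL : ∀ i, M.Dv (L i) := fun i => (hW _).1
  let F i := up ((m : ℝ) • (G i - KM M))
  have F0 : ∀ i P, On n Λ P → F i P.toPlace = 0 := fun i P hP => up_zero (by
    have p := pr_of_on hM (eΛ ▸ hP)
    have := (h i).2.2.2.2.1 P hP
    rw [dsc, Pi.sub_apply, KM_pr hM p, eG, bar_pr hM p] at this
    exact mul_nonneg (Nat.cast_nonneg m) (sub_nonneg.2 (sub_nonpos.1 this)))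
  have h1 := F5.tha (n + 1) 0 K M hM (KM M) U (Finset.univ.image fun i => L i + F i)
    ⟨KM_isCan hM, fU, sU, ?_, ?_, ?_⟩
  rotate_left
  · simp only [Finset.forall_mem_image]
    refine fun i _ => dv_add (dL i) (dv_iff.2 fun Q p => up_zero ?_)
    simp [dv_iff.1 (dG i) Q p, dv_iff.1 (KM_dv hM) Q p]
  · simp only [Finset.forall_mem_image]
    exact fun i _ => IsInt.add ((hW (some (.inr i))).2.2.2 (hm i)) fun Q => ⟨_, rfl⟩
  · simp only [Finset.forall_mem_image]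
    intro i _
    have := adj (X := (m : ℝ)⁻¹ • L i - G i) hM (dG i) (dv_sub (FI.dv_smul (dL i) _) (dG i)) kU
      (hW _).2.2.1 (hE i).2 (eG i ▸ (h i).2.2.2.1) (by
        rw [map_sub, map_smul, ← eL, ← eG, inv_smul_smul₀ (by positivity)]
        exact (hE i).1) m1
    rwa [add_sub_cancel, smul_inv_smul₀ (by positivity)] at this
  let φ : (ι → ℕ) →+ Div K :=
    { toFun := fun a => ∑ i, a i • (L i + F i)
      map_zero' := by simp
      map_add' := fun a b => by simp only [Pi.add_apply, add_smul, Finset.sum_add_distrib] }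
  obtain ⟨T, t1, t2, t3⟩ := _root_.P277Z.Gr.fg_iff.1 (_root_.P277Z.Gr.FGm.comap (fam_H0 M) h1 φ ⊤
    AddMonoid.FG.fg_top fun a _ => AddSubmonoid.sum_mem _ fun i _ =>
      AddSubmonoid.nsmul_mem _ (AddSubmonoid.subset_closure (by simp)) _)
  have e : ∀ a : ι → ℕ, bar M (∑ i, a i • L i) = (m : ℝ) • lc D fun i => (a i : ℝ) := fun a => by
    simp only [map_sum, lc, Finset.smul_sum, ← Nat.cast_smul_eq_nsmul ℝ, map_smul, ← eL,
      smul_comm (m : ℝ)]
  have key : ∀ (a : ι → ℕ) f, f ∈ H0 ((m : ℝ) • lc D fun i => (a i : ℝ)) ↔ f ∈ M.H0 (φ a) := by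
    refine fun a f => mem_H0.trans ⟨fun k => (sec_bar hM).1 (k.mono ?_), fun k =>
      k.imp_right fun k => Pr.hart hR hK hΛ bΛ (Gs.dsc_add hΛ (Gs.dsc_prn hΛ (dv_mem_Prn f))
        (Gs.dsc_smul hΛ _ ((Gs.dS hΛ).sum_mem fun i _ => Gs.dsc_smul hΛ _ (h i).2.1)))
          fun P hP => ?_⟩
    · rw [← e]
      exact bar_mono hM (Finset.sum_le_sum fun i _ =>
        nsmul_le_nsmul_right (le_add_of_nonneg_right (up_nonneg _)) _)
    · have p := pr_of_on hM (eΛ ▸ hP)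
      convert k _ p using 1
      rw [← e, Pi.add_apply, bar_pr hM p]
      simp [φ, dv, Finsupp.finsetSum_apply, F0 _ P hP]
  refine ⟨m, m0, _root_.P277Z.Gr.fg_iff.2 ⟨T, t1, fun t ht => (key _ _).2 (t2 t ht),
    fun a _ f hf => ?_⟩⟩
  refine Submodule.span_induction (p := fun f _ => f ∈ _root_.P277Z.Gr.gen ℂ T a)
    (fun g hg => _root_.P277Z.Gr.mem_gen hg) (zero_mem _) (fun _ _ _ _ => add_mem) ?_
    (t3 a trivial ((key a f).1 hf))
  intro c g _ hg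
  obtain ⟨c, rfl⟩ := F5.CpH.const (pc hM).coh (cpt M) c
  rw [algebraMap_smul]
  exact Submodule.smul_mem _ c hg

end Vale.Agent.P287D.Ba.Fg
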