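import Vale.Agent.P287D.Api.Zar
import Vale.Agent.P287D.Pr.Lr
import Vale.Agent.P287D.Gs.Ful

/-!
# P287D: real adjoint classes, the base point free theorem
-/

set_option linter.all false

open Set Filter Topology
open Vale.Agent.P277Z Vale.Agent.P277Z.FI

noncomputable section

namespace Vale.Agent.P287D.Ba.Fg

variable {n : ℕ} {K : Type} [Field K] [Algebra ℂ K] {Λ D Γ X A : BD K}

/-- a nef and big class is ample on a high model up to a small effective divisor -/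
theorem kod0 (hK : FF K n) (hX : Nef X) (bX : Big X) {J : Type*} [Finite J] {β : J → BD K}
    (hc : ∀ j, β j ∈ Car K) : ∃ E ∈ Car K, 0 ≤ E ∧ ∀ ε : ℝ, 0 < ε → ε ≤ 1 →
      Smp (X - ε • E) ∧ Big (X - ε • E) ∧ ∀ j, Dsc (X - ε • E) (β j) := by
  obtain ⟨M, U, E, W, hM, -, -, -, hE, hW⟩ := nbF hK (X := fun _ : Unit => X) (fun _ => ⟨hX, bX⟩) hc
  obtain ⟨Y, a1, a2, a3, a4, a5, a6⟩ := id (hE ()).1
  refine ⟨bar M (E ()), bar_car hM _, bar_nonneg hM a5, fun ε e0 e1 => ?_⟩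
  have p := (hE ()).1.amp hM a1 a2 e0 e1
  have d := dv_sub a1 (FI.dv_smul a4 ε)
  rw [a2, ← map_smul, ← map_sub]
  exact ⟨Nb.smp_amp hM d p, big_of_big hM (.of_amp d p), fun j => (hW j).2.1 ▸ Md.dsc_bar hM d p _⟩

theorem sig_nb (hK : FF K n) (hX : Nef X) (bX : Big X) : sig X = 0 := by
  obtain ⟨E, -, E0, h⟩ := kod0 hK hX bX (β := Empty.elim) fun j => j.elim
  refine le_antisymm (fun P => le_of_forall_pos_le_add fun δ d => ?_) (sig_nonneg X)
  have e0 : 0 ≤ E P := E0 P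
  have p : 0 < E P + 1 := by linarith
  have m := lt_min (div_pos d p) one_pos
  have s := (h _ m (min_le_right _ _)).1
  have := sig_add_nonneg s.eff (smul_nonneg m.le E0) P
  rw [sub_add_cancel, s.sig_eq, zero_add] at this
  refine this.trans ?_
  rw [Pi.zero_apply, zero_add, Pi.smul_apply, smul_eq_mul]
  nlinarith [(le_div_iff₀ p).1 (min_le_left (δ / (E P + 1)) 1)]

theorem kod (hK : FF K (n + 1)) (hΓ : Γ ∈ Car K) (k : Klt (n + 1) Γ) (hX : Nef X) (bX : Big X)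
    {J : Type*} [Finite J] {β : J → BD K} (hc : ∀ j, β j ∈ Car K) : ∃ E ∈ Car K, 0 ≤ E ∧
      Klt (n + 1) (Γ + E) ∧ Smp (X - E) ∧ Big (X - E) ∧ ∀ j, Dsc (X - E) (β j) := by
  obtain ⟨E, c, E0, h⟩ := kod0 hK hX bX hc
  obtain ⟨t, t0, ht⟩ := Pr.klt_open hK hΓ c k
  have m := lt_min t0 one_pos
  exact ⟨_, (Car K).smul_mem _ c, smul_nonneg m.le E0,
    ht _ ((abs_of_pos m).trans_le (min_le_left _ _)), h _ m (min_le_right _ _)⟩

/-- the ample cone is open -/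
theorem amp_box (hA : Smp A) {J : Type*} [Fintype J] {β : J → BD K} (h : ∀ j, Dsc A (β j)) :
    ∃ η : ℝ, 0 < η ∧ ∀ u : J → ℝ, (∀ j, |u j| ≤ η) → AmpOn A (A + ∑ j, u j • β j) := by
  have p : (0 : ℝ) < ((Fintype.card J : ℝ) + 1)⁻¹ := by positivity
  choose ε e0 e1 using fun j => (hA.ampOn_smul p).opn (h j)
  obtain ⟨η, a, b⟩ : ∃ η : ℝ, 0 < η ∧ ∀ j, η ≤ ε j := by
    obtain ⟨η, a, b⟩ := (((eventually_all.2 fun j => eventually_le_nhds (e0 j)).filter_mono
      (nhdsWithin_le_nhds (s := Ioi 0))).and self_mem_nhdsWithin).exists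
    exact ⟨η, b, a⟩
  refine ⟨η, a, fun u hu => ?_⟩
  have k := fun j => e1 j (u j) ((hu j).trans (b j))
  convert (hA.ampOn_smul p).add_smp (Smp.sum Finset.univ fun j _ => (k j).smp)
    (Dsc.sum hA Finset.univ fun j _ => (k j).1) using 1
  rw [Finset.sum_add_distrib, Finset.sum_const, Finset.card_univ, ← Nat.cast_smul_eq_nsmul ℝ,
    ← add_assoc, smul_smul, ← add_smul, ← one_add_mul, add_comm 1, mul_inv_cancel₀ (by positivity),
    one_smul]

/-- a rational simplex around a point -/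
theorem simplex {J : Type*} [Fintype J] (c : J → ℝ) {η : ℝ} (h : 0 < η) :
    ∃ (q : J → ℚ) (r : ℚ), 0 < (r : ℝ) ∧ (r : ℝ) ≤ η ∧ (∀ j, q j < c j ∧ c j - q j ≤ r) ∧
      ∑ j, (c j - q j) < r := by
  obtain ⟨r, r0, r1⟩ := exists_rat_btwn h
  have p : (0 : ℝ) < Fintype.card J + 1 := by positivity
  choose q a b using fun j => exists_rat_btwn (sub_lt_self (c j) (div_pos r0 p))
  have l : (r : ℝ) / (Fintype.card J + 1) ≤ r := div_le_self r0.le (by simp)
  refine ⟨q, r, r0, r1.le, fun j => ⟨b j, by linarith [a j]⟩, (Finset.sum_le_card_nsmul _ _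
    ((r : ℝ) / (Fintype.card J + 1)) fun j _ => by linarith [a j]).trans_lt ?_⟩
  rw [Finset.card_univ, nsmul_eq_mul, ← mul_div_assoc, div_lt_iff₀ p]
  linarith

/-- a real adjoint class is an interior point of a rational cone of adjoint classes -/
theorem zfam (hK : FF K (n + 1)) (hΛ : Smp Λ) (bΛ : Big Λ) (hΓ : Γ ∈ Car K) (k : Klt (n + 1) Γ)
    (hB : Bdy n Λ Γ) (hX : Nef (D - Γ)) (bX : Big (D - Γ)) {J : Type} [Fintype J] {w : J → BD K}
    (hw : ∀ j, CarQ (w j) ∧ Dsc Λ (w j)) {c : J → ℝ} (e : D = ∑ j, c j • w j) :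
    ∃ (F : Option J → BD K) (a : Option J → ℝ) (H : Finset (Option J → ℤ)), (∀ i, 0 < a i) ∧
      lc F a = D ∧ (∀ u : J → ℝ, ∃ b, lc F b = ∑ j, u j • w j) ∧
      (∀ i, CarQ (F i) ∧ Dsc Λ (F i)) ∧ Zar F H ∧ ∀ x, 0 ≤ x → Psef (lc F x) → Eff (lc F x) := by
  classical
  obtain ⟨E, c1, E0, k1, s1, b1, d1⟩ := kod hK hΓ k hX bX fun j => (hw j).1.car
  obtain ⟨η, h0, h1⟩ := amp_box s1 d1
  obtain ⟨q, r, r0, r1, r2, r3⟩ := simplex c h0
  let v : Option J → J → ℚ := fun i j => q j + if i = some j then r else 0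
  let F : Option J → BD K := fun i => ∑ j, (v i j : ℝ) • w j
  have l : ∀ x, lc F x = ∑ j, ((∑ i, x i) * q j + x (some j) * r) • w j := fun x => by
    simp only [lc, F, Finset.smul_sum, smul_smul]
    rw [Finset.sum_comm]
    refine Finset.sum_congr rfl fun j _ => ?_
    rw [← Finset.sum_smul]
    simp [v, mul_add, add_mul, Finset.sum_add_distrib, Finset.sum_mul, apply_ite ((↑) : ℚ → ℝ)]
  have f : ∀ i, CarQ (F i) ∧ Dsc Λ (F i) := fun i =>
    ⟨CarQ.sum _ fun j _ => (hw j).1.qsmul _, Dsc.sum hΛ _ fun j _ => (hw j).2.smul _⟩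
  obtain ⟨⟨H, Z⟩, z⟩ := Api.zarh n K hK _ Λ F (fun _ => Γ + E) hΛ bΛ fun i => by
    have := h1 (fun j => v i j - c j) fun j => by
      have := r2 j
      by_cases g : i = some j <;> simp only [v, g, if_true, if_false] <;> push_cast <;>
        rw [abs_le] <;> constructor <;> linarith
    rw [show D - Γ - E + ∑ j, ((v i j : ℝ) - c j) • w j = F i - (Γ + E) by
      simp only [sub_smul, Finset.sum_sub_distrib, ← e, F]; abel] at this
    exact ⟨(f i).1, (f i).2, add_mem hΓ c1, k1,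
      fun P hP => (Pr.dsc_add _ _ _ _).trans_le (sub_nonpos.2 ((hB P hP).trans (E0 P))),
      this.nef, this.big_iff.1 b1⟩
  refine ⟨F, fun i => i.elim (1 - ∑ j, (c j - q j) / r) fun j => (c j - q j) / r, H, ?_, ?_,
    fun u => ⟨fun i => i.elim (-∑ j, u j / r) fun j => u j / r, ?_⟩, f, Z, z⟩
  · rintro (_ | j)
    · exact sub_pos.2 (by rwa [← Finset.sum_div, div_lt_one r0])
    · exact div_pos (sub_pos.2 (r2 j).1) r0
  · simp [l, e, Fintype.sum_option, r0.ne']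
  · simp [l, Fintype.sum_option, r0.ne']

theorem dsc_fam (h : Dsc Λ D) (s : Finset K) (hs : Dsc Λ (mx s)) :
    ∃ (T : Finset (Finset K)) (c : T → ℝ), s ∈ T ∧ (∀ u ∈ T, Dsc Λ (mx u)) ∧
      D = ∑ j, c j • mx (j : Finset K) := by
  classical
  obtain ⟨l, a, b⟩ := Gs.dsc_span h.smp h
  refine ⟨insert s l.support, fun j => l j, Finset.mem_insert_self _ _, Finset.forall_mem_insert
    .. |>.2 ⟨hs, fun u hu => b u (Finsupp.mem_support_iff.1 hu)⟩, ?_⟩
  rw [Finset.sum_coe_sort _ fun u => l u • mx u, a]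
  exact Finsupp.sum_of_support_subset l (Finset.subset_insert _ _) _ fun _ _ => zero_smul _ _

/-- real adjoint classes have good minimal models -/
theorem abund (hK : FF K (n + 1)) (bΛ : Big Λ) (hD : Dsc Λ D) (hΓ : Γ ∈ Car K)
    (k : Klt (n + 1) Γ) (hB : Bdy n Λ Γ) (hX : Nef (D - Γ)) (bX : Big (D - Γ)) (h : Psef D) :
    ZD D (sig D) := by
  obtain ⟨s, -, hs⟩ := hD.smp.exists_ampOn
  obtain ⟨T, c, -, a, e⟩ := dsc_fam hD s hs.1
  obtain ⟨F, x, H, b, rfl, -, -, Z, z⟩ :=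
    zfam hK hD.smp bΛ hΓ k hB hX bX (fun j : T => ⟨carQ_mx _, a _ j.2⟩) e
  exact Z.zd ⟨fun i => (b i).le, z x (fun i => (b i).le) h⟩

/-- **BPF** -/
theorem bpf (hK : FF K (n + 1)) (bΛ : Big Λ) (hD : Dsc Λ D) (hΓ : Γ ∈ Car K)
    (k : Klt (n + 1) Γ) (hB : Bdy n Λ Γ) (hX : Nef (D - Γ)) (bX : Big (D - Γ)) (h : Nef D) :
    Smp D := by
  classical
  obtain ⟨s, -, hs⟩ := hD.smp.exists_ampOn
  obtain ⟨T, c, m, a, e⟩ := dsc_fam hD s hs.1
  obtain ⟨F, x, H, b, rfl, d, -, Z, z⟩ :=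
    zfam hK hD.smp bΛ hΓ k hB hX bX (fun j : T => ⟨carQ_mx _, a _ j.2⟩) e
  obtain ⟨y, hy⟩ := d (Pi.single ⟨s, m⟩ 1)
  simp only [Pi.single_apply, ite_smul, one_smul, zero_smul, Finset.sum_ite_eq', Finset.mem_univ,
    if_true] at hy
  have t : Tendsto (fun ε : ℝ => x + ε • y) (𝓝 0) (𝓝 x) :=
    Continuous.tendsto' (by fun_prop) _ _ (by simp)
  obtain ⟨ε, ⟨p1, p2⟩, p3⟩ := (((t.eventually ((Z.star x).and (eventually_all.2 fun i =>
    (continuous_apply i).continuousAt.eventually (lt_mem_nhds (b i))))).filter_mono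
      (nhdsWithin_le_nhds (s := Ioi 0))).and self_mem_nhdsWithin).exists
  have g := (hs.big_iff.1 bΛ).smul p3
  have n1 := (nef_mx s).smul (le_of_lt p3)
  obtain ⟨p4, p5⟩ := p1 ⟨fun i => (p2 i).le, by
    rw [lc_add, lc_smul, hy]; exact (h.psef.add_big g).eff⟩
  have := p5 1 1 zero_le_one zero_le_one
  simp only [one_smul, lc_add, lc_smul, hy] at this
  rw [sig_nb hK (h.add (h.add n1)) (h.psef.add_big (h.psef.add_big g)),
    sig_nb hK (h.add n1) (h.psef.add_big g), add_zero] at this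
  simpa [mob, ← this] using Z.smp p4

/-- **KLK** -/
theorem klk : KLK := fun n K _ _ hK Λ Λ₁ Γ c hΛ h₁ b₁ d₁ d₂ hB k hn hb β hβ nβ => by
  have key : ∀ γ, Dsc Λ₁ γ → Nef γ → Smp (γ + (|c| + 1) • Λ) := fun γ a b => by
    have s := (hΛ.smul (sub_nonneg.2 ((le_abs_self c).trans (le_add_of_nonneg_right
      zero_le_one)))).nef
    have e : γ + (|c| + 1) • Λ - Γ = c • Λ - Γ + (γ + (|c| + 1 - c) • Λ) := by module
    exact bpf hK b₁ (a.add (d₂.smul _)) d₁.car k hB (e ▸ hn.add (b.add s))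
      (e ▸ hb.add_nef (b.add s)) (b.add (hΛ.smul (by positivity)).nef)
  refine ⟨fun d hd => ?_, fun dβ A hA => ?_⟩
  · have p : 0 < |c| + 1 + |d| := by positivity
    refine ⟨_, inv_pos.2 p, .of_smul p ?_, .of_smul p ?_⟩
    · convert (key β hβ nβ).add (hΛ.smul (abs_nonneg d)) using 1
      rw [smul_add, smul_inv_smul₀ p.ne']
      module
    · convert (key _ ((d₂.smul d).sub hβ) hd).add (hΛ.smul (sub_nonneg.2 (le_abs_self d))) using 1
      rw [smul_sub, smul_inv_smul₀ p.ne']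
      module
  · obtain ⟨ε, e0, e1⟩ := hA.2
    have p : 0 < |c| + 1 := by positivity
    have q : 0 < ε / 2 / (|c| + 1) := by positivity
    refine ⟨hA.1.add dβ, ε / 2, half_pos e0, ?_⟩
    convert e1.add ((key _ (hβ.smul _) (nβ.smul (inv_pos.2 q).le)).smul q.le) using 1
    rw [smul_add, smul_inv_smul₀ q.ne', smul_smul, div_mul_cancel₀ _ p.ne']
    module

end Vale.Agent.P287D.Ba.Fg
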