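import Vale.Agent.P287D.Hd.St
import Vale.Agent.P287D.Tr.Cor
import Vale.Agent.P287D.Pb.Up
import Vale.Agent.P287D.Iso.Bas
import Vale.Agent.P287D.Va.Cone
import Vale.Agent.P287D.Rm.Apx

/-!
# P287D, row FG: norms of general members of the system of the matchings
-/

open Set
open Vale.Agent.P297Z Vale.Agent.P287D.Hd Vale.Agent.P287D.Tre

noncomputable section

namespace Vale.Agent.P287D.Fg

variable {L E : Type} [Field L] [Algebra ℂ L] [Field E] [Algebra ℂ E] [Algebra L E]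

theorem vl (P : Pl E) : Vl fun a => (P.ord a : ℝ) where
  neg a := by rw [Pl.ord_neg]
  add a b p q r := by exact_mod_cast Pl.min_ord_le_add P.toPlace p q r
  mul a b p q := by exact_mod_cast Pl.ord_mul P.toPlace p q

/-- the normalised valuation -/
def nv (P : Pl E) (Q : Pl L) (a : E) : ℝ := P.ord a / ei P Q

theorem ei_pos {P : Pl E} {Q : Pl L} (h : Ov L P Q) : (0 : ℝ) < ei P Q := by
  exact_mod_cast h.e_pos

theorem vl_nv {P : Pl E} {Q : Pl L} (h : Ov L P Q) : Vl (nv P Q) := (vl P).div (ei_pos h)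

theorem nv_map {P : Pl E} {Q : Pl L} (h : Ov L P Q) (a : L) :
    nv P Q (algebraMap L E a) = Q.ord a := by
  have := (ei_pos h).ne'
  rw [nv, h.ord, Int.cast_mul]
  exact mul_div_cancel_left₀ _ this

theorem exists_int [Algebra.IsAlgebraic L E] (a : E) : ∃ W : Finset L, ∀ (P : Pl E) (Q : Pl L),
    Ov L P Q → (∀ w ∈ W, Q.ord w = 0) → 0 ≤ P.ord a := by
  obtain ⟨p, hp, e⟩ : IsIntegral L a := Algebra.IsIntegral.isIntegral a
  refine ⟨p.coeffs, fun P Q h k => Pl.ord_nonneg_of_mem _ ?_⟩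
  have : (↑(p.map (algebraMap L E)).coeffs : Set E) ⊆ P.ring.toSubring := fun b hb => by
    obtain ⟨n, -, rfl⟩ := Polynomial.mem_coeffs_iff.1 hb
    rw [Polynomial.coeff_map]
    by_cases z : p.coeff n = 0
    · simp [z]
    · exact (h _).1 ((Pl.ord_nonneg_iff _ z).1 (k _ (Polynomial.coeff_mem_coeffs z)).ge)
  have i : IsIntegral P.ring a := ⟨Polynomial.toSubring _ _ this,
    (Polynomial.monic_toSubring _ _ _).2 (hp.map _), by
      rw [Polynomial.eval₂_eq_eval_map]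
      refine (congrArg _ (Polynomial.map_toSubring _ _ this)).trans ?_
      rwa [Polynomial.eval_map]⟩
  obtain ⟨y, hy⟩ := IsIntegrallyClosed.isIntegral_iff.1 i
  exact hy ▸ y.2

theorem exists_mz [Algebra.IsAlgebraic L E] (T : Finset E) : ∃ W : Finset L,
    ∀ (P : Pl E) (Q : Pl L), Ov L P Q → (∀ w ∈ W, Q.ord w = 0) → P.mz T = 0 := by
  classical
  choose W hW using exists_int (L := L) (E := E)
  refine ⟨T.biUnion fun a => W a ∪ W a⁻¹, fun P Q h k => ?_⟩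
  by_cases n : Nz T
  · obtain ⟨a, ha, -, e⟩ := P.exists_mz n
    have p := hW a P Q h fun w hw => k w (Finset.mem_biUnion.2 ⟨a, ha, by simp [hw]⟩)
    have q := hW a⁻¹ P Q h fun w hw => k w (Finset.mem_biUnion.2 ⟨a, ha, by simp [hw]⟩)
    rw [Pl.ord_inv] at q
    omega
  · exact P.mz_of_not n

variable [IsScalarTower ℂ L E]

/-- the conjugate place -/
def cj (γ : E ≃ₐ[L] E) (P : Pl E) : Pl E := (Semi.of_alg (γ.symm.restrictScalars ℂ)).pl P

theorem cj_ord (γ : E ≃ₐ[L] E) (P : Pl E) (a : E) : (cj γ P).ord a = P.ord (γ a) := by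
  simpa [cj] using (Semi.of_alg (γ.symm.restrictScalars ℂ)).ord_pl P (γ a)

theorem cj_mem (γ : E ≃ₐ[L] E) (P : Pl E) (a : E) : a ∈ (cj γ P).ring ↔ γ a ∈ P.ring := by
  simpa [cj] using (Semi.of_alg (γ.symm.restrictScalars ℂ)).mem_pl (P := P) (f := γ a)

theorem cj_ov (γ : E ≃ₐ[L] E) {P : Pl E} {Q : Pl L} (h : Ov L P Q) : Ov L (cj γ P) Q :=
  fun f => by rw [cj_mem, γ.commutes, h f]

theorem nv_cj (γ : E ≃ₐ[L] E) (P : Pl E) (Q : Pl L) (a : E) : nv (cj γ P) Q a = nv P Q (γ a) := by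
  rw [nv, nv, ei, ei, cj_ord, cj_ord, γ.commutes]

variable [FiniteDimensional L E] [IsGalois L E]

theorem ord_norm {P : Pl E} {Q : Pl L} (h : Ov L P Q) {f : E} (hf : f ≠ 0) :
    (Q.ord (Algebra.norm L f) : ℝ) = ∑ γ : E ≃ₐ[L] E, nv (cj γ P) Q f := by
  rw [← nv_map h, Algebra.norm_eq_prod_automorphisms,
    (vl_nv h).prod _ fun γ _ => (map_ne_zero γ).2 hf]
  simp only [nv_cj]

theorem centre {P : Pl E} {Q : Pl L} (h : Ov L P Q) {x : E × ℝ}
    (hx : ∀ γ : E ≃ₐ[L] E, (∀ a, nv P Q (γ a) = nv P Q a) → Tre.rho (nv P Q) x (γ x.1) = x.2) :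
    ∃ c : L, Tre.rho (nv P Q) x (algebraMap L E c) = x.2 := by
  classical
  have : CharZero E := charZero_of_injective_algebraMap (algebraMap ℂ E).injective
  have e := ei_pos h
  obtain ⟨c, h1, h2⟩ := (vl_nv h).centre (G := E ≃ₐ[L] E) (fun n _ => by
    rw [nv, ← map_natCast (algebraMap ℂ E), P.ord_const, Int.cast_zero, zero_div]) (fun N => by
    obtain ⟨u, -, -, -, u1, u2⟩ := Rm.approx P.toPlace ((Finset.univ.filter fun γ : E ≃ₐ[L] E =>
      ¬ ∀ a, nv P Q (γ a) = nv P Q a).image fun γ => (cj γ P).toPlace) (fun q => by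
        obtain ⟨γ, a, b⟩ := Finset.mem_image.1 q
        exact (Finset.mem_filter.1 a).2 fun a => by rw [nv, nv, ← cj_ord, b]) ⌈N * ei P Q⌉₊
    have k : ∀ z : ℤ, (⌈N * ei P Q⌉₊ : ℤ) < z → N ≤ z / ei P Q := fun z hz =>
      (le_div_iff₀ e).2 ((Nat.le_ceil _).trans (by exact_mod_cast hz.le))
    exact ⟨u, .inr (k _ u1), fun γ q => .inr (k _ (by
      have := u2 _ (Finset.mem_image_of_mem _ (Finset.mem_filter.2 ⟨Finset.mem_univ γ, q⟩))
      rwa [cj_ord] at this))⟩) hx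
  obtain ⟨c, rfl⟩ := (IsGalois.mem_range_algebraMap_iff_fixed c).2 h1
  exact ⟨c, h2⟩

variable {ι : Type} [Fintype ι] {s : ι → E} {m : ι → ℚ}

/-- weighted points which are permuted by the Galois group -/
structure Wt (L : Type) [Field L] [Algebra L E] (s : ι → E) (m : ι → ℚ) : Prop where
  inj : Function.Injective s
  nn : ∀ i, 0 ≤ m i
  le : ∀ i, m i ≤ 1
  sum : ∑ i, m i = 2
  inv : ∀ γ : E ≃ₐ[L] E, ∃ π : ι ≃ ι, (∀ i, s (π i) = γ (s i)) ∧ ∀ i, m (π i) = m i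

theorem Wt.sys (w : Wt L s m) : ∃ (N : ℕ) (T : Finset E), 0 < N ∧ Nz T ∧
    ∀ (P : Pl E) (Q : Pl L), Ov L P Q →
      (∀ γ : E ≃ₐ[L] E, (cj γ P).mz T = P.mz T) ∧
      (∀ x, P.mz T / ei P Q / N ≤ psi (nv P Q) s (fun i => m i) x) ∧
      ∃ (c : L) (k : ℤ), psi (nv P Q) s (fun i => m i) (algebraMap L E c, k) ≤
        P.mz T / ei P Q / N + 1 / 2 := by
  obtain ⟨N, T, N0, T0, h⟩ := exists_sys w.inj w.nn w.le w.sum
  have N1 : (0 : ℝ) < N := by exact_mod_cast N0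
  have nz : Nz T := by
    have t : Vl fun _ : E => (0 : ℝ) := ⟨⟨fun _ => rfl, fun _ _ _ _ _ => by simp⟩, by simp⟩
    obtain ⟨i, r, b⟩ := t.toUm.exists_bal w.inj w.nn w.le w.sum
    obtain ⟨p, hp, -⟩ := (h _ t).2 _ b
    exact ⟨p, hp, fun e => T0 (e ▸ hp)⟩
  have lo : ∀ (P : Pl E) (Q : Pl L), Ov L P Q → ∀ x,
      P.mz T / ei P Q / N ≤ psi (nv P Q) s (fun i => m i) x := fun P Q o x => by
    obtain ⟨p, hp, -, e⟩ := P.exists_mz nz
    have := (h _ (vl_nv o)).1 p hp x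
    rw [e, Int.cast_neg, neg_div, neg_div]
    unfold nv at this ⊢
    linarith
  have up : ∀ (P : Pl E) (Q : Pl L), Ov L P Q → ∃ x, Bal (nv P Q) s m x ∧
      psi (nv P Q) s (fun i => m i) x ≤ P.mz T / ei P Q / N := fun P Q o => by
    obtain ⟨i, r, b⟩ := (vl_nv o).toUm.exists_bal w.inj w.nn w.le w.sum
    obtain ⟨p, hp, e⟩ := (h _ (vl_nv o)).2 _ b
    have q : (-P.ord p : ℝ) ≤ P.mz T := by exact_mod_cast P.le_mz hp fun e => T0 (e ▸ hp)
    refine ⟨_, b, le_trans (le_of_eq ?_) (div_le_div_of_nonneg_right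
      (div_le_div_of_nonneg_right q (ei_pos o).le) N1.le)⟩
    rw [neg_div, neg_div]
    unfold nv at e ⊢
    linarith
  have cp : ∀ (γ : E ≃ₐ[L] E) (P : Pl E) (Q : Pl L) x, psi (nv (cj γ P) Q) s (fun i => m i) x =
      psi (nv P Q) s (fun i => m i) (γ x.1, x.2) := fun γ P Q x => by
    obtain ⟨π, a, b⟩ := w.inv γ
    rw [funext (nv_cj γ P Q)]
    exact psi_comp (nv P Q) (γ : E →+* E) π a (fun i => by rw [b]) x
  refine ⟨N, T, N0, nz, fun P Q o => ⟨fun γ => ?_, lo P Q o, ?_⟩⟩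
  · obtain ⟨x, -, a⟩ := up P Q o
    obtain ⟨y, -, b⟩ := up _ Q (cj_ov γ o)
    have c := lo _ Q (cj_ov γ o) (γ.symm x.1, x.2)
    rw [cp, γ.apply_symm_apply] at c
    rw [cp] at b
    have e : ei (cj γ P) Q = ei P Q := by rw [ei, ei, cj_ord, γ.commutes]
    rw [e] at b c
    have := le_antisymm (c.trans a) ((lo P Q o _).trans b)
    rw [div_left_inj' N1.ne', div_left_inj' (ei_pos o).ne'] at this
    exact_mod_cast this
  · obtain ⟨x, b, a⟩ := up P Q o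
    have u := (vl_nv o).toUm
    obtain ⟨c, hc⟩ := centre o (x := x) fun γ q => by
      obtain ⟨π, a, d⟩ := w.inv γ
      exact b.fix u w.nn w.sum γ.injective (fun a c _ => by rw [← map_sub, q]) π a d
    have := (abs_le.1 ((u.lip (s := s) (m := fun i => (m i : ℝ)) (fun i => by exact_mod_cast w.nn i)
      (by exact_mod_cast w.sum) x _).trans (ds_round hc))).1
    exact ⟨c, round x.2, by linarith⟩

theorem Wt.exists_prn (w : Wt L s m) {H : Set (Pl L)} {δ : Pl L → ℕ} (h1 : ∀ Q ∈ H, 1 ≤ δ Q)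
    (h0 : ∀ Q ∉ H, δ Q = 0)
    (hd : ∀ Z ∈ Prn L, {Q | Q ∈ H ∧ Z Q ≠ 0}.Finite ∧ ∑ᶠ Q, δ Q * Z Q = 0) {ε : ℝ} (hε : 0 < ε) :
    ∃ Z ∈ Prn L, (∀ (P : Pl E) (Q : Pl L), Ov L P Q →
      ∀ x, 0 ≤ Z Q + psi (nv P Q) s (fun i => m i) x) ∧ ∀ Q ∈ H, ∃ P : Pl E, Ov L P Q ∧
        ∃ (c : L) (k : ℤ), Z Q + psi (nv P Q) s (fun i => m i) (algebraMap L E c, k) ≤ 1 / 2 + ε := by
  classical
  obtain ⟨N, T, N0, nz, h⟩ := w.sys
  have N1 : (0 : ℝ) < N := by exact_mod_cast N0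
  choose R hR using Pb.up_fin (K := L) (K' := E)
  let μ : Pl E → Pl L → ℝ := fun P Q => P.mz T / ei P Q / N
  obtain ⟨W, hW⟩ := exists_mz (L := L) T
  have fin : {Q | Q ∈ H ∧ μ (R Q) Q ≠ 0}.Finite :=
    (W.finite_toSet.biUnion fun a _ => (hd _ (dv_mem_Prn a)).1).subset fun Q q => by
      by_contra c
      refine q.2 ?_
      simp only [μ]
      rw [hW _ Q (hR Q) fun a ha => by_contra fun n => c (mem_biUnion ha ⟨q.1, ?_⟩)]
      · simp
      · exact Int.cast_ne_zero.2 n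
  have fs : ∀ Z : BD L, {Q | Q ∈ H ∧ Z Q ≠ 0}.Finite →
      (Function.support fun Q => δ Q * Z Q).Finite := fun Z f => f.subset fun Q q =>
    ⟨by_contra fun n => q (by simp [h0 Q n]), right_ne_zero_of_mul q⟩
  obtain ⟨C, hC⟩ : ∃ C, ∑ᶠ Q, δ Q * μ (R Q) Q = C := ⟨_, rfl⟩
  have one : ∀ U : Set (Pl L), U.Finite → ∃ Z ∈ Prn L, (∀ P Q, Ov L P Q → 0 ≤ Z Q + μ P Q) ∧
      (∀ Q ∈ U, Z Q + μ (R Q) Q = 0) ∧ ∀ Q ∈ H, Z Q + μ (R Q) Q ≤ C := fun U hU => by
    obtain ⟨f, hf, f0, k⟩ := exists_gen nz (hU.biUnion fun Q _ => Pb.fin_above (K' := E) Q)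
    obtain ⟨g, hg⟩ : ∃ g : ℝ, g = Fintype.card (E ≃ₐ[L] E) := ⟨_, rfl⟩
    have g0 : 0 < g := by
      rw [hg]
      exact_mod_cast Fintype.card_pos
    let Z := (g * N)⁻¹ • dv (Algebra.norm L f)
    have e : ∀ P Q, Ov L P Q → Z Q + μ P Q =
        (g * N * ei P Q)⁻¹ * ∑ γ : E ≃ₐ[L] E, (dv f + mx T) (cj γ P) := fun P Q o => by
      have := (ei_pos o).ne'
      have a : ∀ γ : E ≃ₐ[L] E, ei (cj γ P) Q = ei P Q := fun γ => by
        rw [ei, ei, cj_ord, γ.commutes]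
      simp only [Z, μ, Pi.smul_apply, Pi.add_apply, dv_apply, mx_apply, ord_norm o f0, nv, a,
        (h P Q o).1, Finset.sum_add_distrib, Finset.sum_const, Finset.card_univ, nsmul_eq_mul,
        ← hg, ← Finset.sum_div, smul_eq_mul]
      field_simp
    have z : Z ∈ Prn L := Submodule.smul_mem _ _ (dv_mem_Prn _)
    have p : ∀ P Q, Ov L P Q → 0 ≤ Z Q + μ P Q := fun P Q o => by
      have := ei_pos o
      rw [e P Q o]
      exact mul_nonneg (by positivity)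
        (Finset.sum_nonneg fun γ _ => (sec_of_span hf).resolve_left f0 _)
    refine ⟨Z, z, p, fun Q q => ?_, fun Q q => ?_⟩
    · rw [e _ Q (hR Q), Finset.sum_eq_zero fun γ _ => k _ (mem_biUnion q (cj_ov γ (hR Q))),
        mul_zero]
    · have a := finsum_add_distrib (fs Z (hd Z z).1) (fs _ fin)
      rw [(hd Z z).2, hC, zero_add] at a
      have b := single_le_finsum Q (f := fun Q => δ Q * Z Q + δ Q * μ (R Q) Q)
        (((fs Z (hd Z z).1).union (fs _ fin)).subset (Function.support_add _ _)) fun Q => by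
          rw [← mul_add]
          exact mul_nonneg (Nat.cast_nonneg _) (p _ Q (hR Q))
      have c : (1 : ℝ) ≤ δ Q := by exact_mod_cast h1 Q q
      rw [a, ← mul_add] at b
      nlinarith [p _ Q (hR Q)]
  have all : ∀ n : ℕ, ∃ Z ∈ Prn L, (∀ P Q, Ov L P Q → 0 ≤ Z Q + n * μ P Q) ∧
      ∀ Q ∈ H, Z Q + n * μ (R Q) Q ≤ |C| := fun n => by
    induction n with
    | zero => exact ⟨0, zero_mem _, by simp, by simp⟩
    | succ n ih =>
      obtain ⟨Z, z, a, b⟩ := ih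
      obtain ⟨Y, y, c, d, e⟩ := one _ ((hd Z z).1.union fin)
      refine ⟨Z + Y, add_mem z y, fun P Q o => ?_, fun Q q => ?_⟩
      · have := a P Q o
        have := c P Q o
        simp only [Pi.add_apply, Nat.cast_succ]
        linarith
      · simp only [Pi.add_apply, Nat.cast_succ]
        by_cases r : Z Q = 0 ∧ μ (R Q) Q = 0
        · have := (e Q q).trans (le_abs_self C)
          rw [r.1, r.2] at *
          linarith
        · have := d Q ((not_and_or.1 r).imp (fun t => ⟨q, t⟩) fun t => ⟨q, t⟩)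
          linarith [b Q q]
  obtain ⟨n, hn⟩ := exists_nat_gt (|C| / ε)
  have n0 : (0 : ℝ) < n := (div_nonneg (abs_nonneg C) hε.le).trans_lt hn
  obtain ⟨Z, z, a, b⟩ := all n
  have e : ∀ P Q, ((n : ℝ)⁻¹ • Z) Q + μ P Q = (Z Q + n * μ P Q) / n := fun P Q => by
    simp only [Pi.smul_apply, smul_eq_mul]
    field_simp
  refine ⟨(n : ℝ)⁻¹ • Z, Submodule.smul_mem _ _ z, fun P Q o x => ?_, fun Q q => ?_⟩
  · have := div_nonneg (a P Q o) n0.le
    rw [← e] at this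
    linarith [(h P Q o).2.1 x]
  · obtain ⟨c, k, d⟩ := (h _ Q (hR Q)).2.2
    have : (Z Q + n * μ (R Q) Q) / n ≤ ε := by
      rw [div_lt_iff₀ hε] at hn
      rw [div_le_iff₀ n0]
      linarith [b Q q]
    rw [← e] at this
    exact ⟨_, hR Q, c, k, by linarith⟩

end Vale.Agent.P287D.Fg
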