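import Vale.Agent.P287D.Fg.Gau

/-!
# P287D, row FU: rational Gauss places
-/

set_option linter.unusedSectionVars false

open Set
open Polynomial hiding map_ne_zero
open scoped IntermediateField
open Vale.Agent.P297Z Vale.Agent.P287D.Hd Vale.Agent.P287D.Cb Vale.Agent.P287D.Hd.Ln

noncomputable section

namespace Vale.Agent.P287D.Fg

variable {J L : Type} [Field J] [Algebra ℂ J] [Field L] [Algebra ℂ L] [Algebra J L]
  [IsScalarTower ℂ J L] {P P' : Pl L} {Q : Pl J} {z t : L} {n : ℕ}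

theorem med_unit (m : Med J P z) {W : ValuationSubring J} (hW : Wr J P = W) (q : W[X]) {i : ℕ}
    (h : IsUnit (q.coeff i)) : P.ord (aeval z (q.map W.subtype)) = 0 := by
  subst hW
  obtain ⟨a, b⟩ := rd_poly m.1 q
  refine (Ru.not_mx a fun e => m.2 ⟨q.map (rW J P), fun k => ?_, b ▸ (rd_eq_zero a).2 e⟩).2
  exact (h.map (rW J P)).ne_zero (by rw [← coeff_map, k, coeff_zero])

theorem med_uniq (h : Ru J z) (o : Ov J P Q) (o' : Ov J P' Q) (m : Med J P z) (m' : Med J P' z) :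
    P = P' := by
  have w : Wr J P' = Wr J P := ValuationSubring.ext _ _ fun f => (o' f).symm.trans (o f)
  have k : ∀ p : J[X], p ≠ 0 → ∃ c : J, P.ord (aeval z p) = ei P Q * Q.ord c ∧
      P'.ord (aeval z p) = ei P' Q * Q.ord c := fun p p0 => by
    obtain ⟨c, q, c0, rfl, q0⟩ := exists_prim P p0
    obtain ⟨i, hi⟩ := Polynomial.support_nonempty.2 q0
    rw [mem_support_iff, coeff_map] at hi
    have u : IsUnit (q.coeff i) := by
      have r : P.rd (algebraMap J L (q.coeff i)) ≠ 0 := fun e => hi (Subtype.ext e)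
      have x0 : (q.coeff i : J) ≠ 0 := fun e => r (by rw [e, map_zero, rd_zero'])
      exact IsUnit.of_mul_eq_one ⟨(q.coeff i : J)⁻¹, show algebraMap J L _ ∈ P.ring from
        map_inv₀ (algebraMap J L) _ ▸ (rd_inv' (q.coeff i).2 r).1⟩
        (Subtype.ext (mul_inv_cancel₀ x0))
    have c1 := (map_ne_zero (algebraMap J L)).2 c0
    have q1 := h.ne (right_ne_zero_of_mul p0)
    exact ⟨c, by rw [map_mul, aeval_C, Pl.ord_mul _ c1 q1, med_unit m rfl q u, add_zero, o.ord, ei],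
      by rw [map_mul, aeval_C, Pl.ord_mul _ c1 q1, med_unit m' w q u, add_zero, o'.ord, ei]⟩
  by_contra c
  obtain ⟨f, f1, f2⟩ := Rm.sep_one (P := P.toPlace) (Q := P'.toPlace)
    fun e => c (Pl.ext' (congrArg _ e))
  obtain ⟨a, b, b0, rfl⟩ := h.frac f
  have a0 : a ≠ 0 := fun e => by simp [e] at f1
  obtain ⟨u, u1, u2⟩ := k a a0
  obtain ⟨v, v1, v2⟩ := k b b0
  rw [Pl.ord_div _ (h.ne a0) (h.ne b0)] at f1 f2
  rw [u1, v1, ← mul_sub] at f1
  rw [u2, v2, ← mul_sub] at f2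
  exact absurd (mul_pos o.e_pos ((mul_pos_iff_of_pos_left o'.e_pos).1 f2)) f1.not_gt

theorem med_sub (m : Med J P z) {b : J} (hb : algebraMap J L b ∈ P.ring) :
    Med J P (z - algebraMap J L b) := ⟨sub_mem m.1 hb, fun a => m.2 (by
  rw [rd_sub m.1 hb] at a
  have := a.add (isAlgebraic_algebraMap (⟨_, mem_Rs.2 ⟨b, hb, rfl⟩⟩ : Rs J P))
  exact sub_add_cancel (P.rd z) (P.rd (algebraMap J L b)) ▸ this)⟩

theorem alg_mem {E : Type} [Field E] {k : Subfield E} {u a : E} (hu : Transcendental k u)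
    (h : a ∈ Subfield.closure (insert u (k : Set E))) (ha : IsAlgebraic k a) : a ∈ k := by
  have h1 : a ∈ k⟮u⟯ := (Subfield.closure_le (t := k⟮u⟯.toSubfield)).2 (insert_subset
    (IntermediateField.mem_adjoin_simple_self k u)
    fun x hx => IntermediateField.algebraMap_mem _ (⟨x, hx⟩ : k)) h
  let e := RatFunc.algEquivOfTranscendental u hu
  obtain ⟨f, hf⟩ := e.surjective ⟨a, h1⟩
  obtain ⟨c, rfl⟩ : ∃ c, f = RatFunc.C c := by_contra fun n => f.transcendental_of_ne_C n (by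
    rw [← isAlgebraic_algHom_iff e.toAlgHom e.injective, show e.toAlgHom f = _ from hf]
    exact (isAlgebraic_algebraMap_iff (algebraMap k⟮u⟯ E).injective).1 ha)
  rw [← RatFunc.algebraMap_eq_C, e.commutes] at hf
  exact (congrArg Subtype.val hf).subst c.2

theorem med_irr (h : Ru J z) (m : Med J P z) : ¬ Irr J P := by
  rintro ⟨a, a1, a2⟩
  refine a2 (alg_mem m.2 ?_ a1)
  obtain ⟨f, hf, rfl⟩ := rd_surj a
  exact (SetLike.ext_iff.1 (grs J L P z m) _).1
    (mem_Rs.2 ⟨⟨f, h.2.ge trivial⟩, hf, rfl⟩)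

/-- a place of index one is a rational Gauss place or lies one step beyond it -/
theorem exists_top (hJ : FF J n) (h : Ru J t) {y : Fin n → J} (hy : AlgebraicIndependent ℂ y)
    (o : Ov J P Q) (e : ei P Q = 1) : ∃ (a : J) (k : ℤ), P.ord (t - algebraMap J L a) = k ∧
      (∀ b, P.ord (t - algebraMap J L b) ≤ k) ∧
      (kap y Q + k + 1 ≤ kap (cw y t) P ∨ kap y Q + k = kap (cw y t) P ∧
        Med J P (algebraMap J L (Q.t ^ k)⁻¹ * (t - algebraMap J L a))) := by
  obtain ⟨k, ⟨a, ha⟩, mx⟩ := Int.exists_greatest_of_bdd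
    (P := (· ∈ range fun b => P.ord (t - algebraMap J L b)))
    ⟨⌊kap (cw y t) P - kap y Q⌋, fun _ ⟨i, z⟩ => z ▸ Int.le_floor.2 (by
      have := k4p hJ h hy o (p := Polynomial.X - C i) (by simp)
      simp only [map_sub, aeval_X, aeval_C, derivative_X, derivative_C, sub_zero, map_one,
        Pl.ord_one, Int.cast_zero, e, Int.cast_one] at this
      linarith)⟩ ⟨_, 0, rfl⟩
  refine ⟨a, k, ha, fun b => mx _ ⟨b, rfl⟩, ?_⟩
  have t0 := inv_ne_zero (zpow_ne_zero k Q.t_ne)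
  have r := ru_mul (ru_aff h a) t0
  have v : P.ord (algebraMap J L (Q.t ^ k)⁻¹) = -k := by
    rw [ei] at e
    rw [o.ord, e, one_mul, Pl.ord_inv, Q.ord_t_zpow]
  obtain ⟨d, d0, d1, -, d2⟩ := exists_der hJ h hy
  have j : d (algebraMap J L (Q.t ^ k)⁻¹ * (t - algebraMap J L a)) = algebraMap J L (Q.t ^ k)⁻¹ := by
    rw [Derivation.leibniz, map_sub, d0, d0, d1]
    simp
  have g := congrFun (d2 _ (j.trans_ne ((map_ne_zero _).2 t0))).2 P
  rw [j, Pi.add_apply, dv_apply, v, Int.cast_neg] at g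
  by_cases m : Med J P (algebraMap J L (Q.t ^ k)⁻¹ * (t - algebraMap J L a))
  · rw [kap_med hJ r hy o e m] at g
    exact .inr ⟨by linarith, m⟩
  · have := k4m hJ r hy o (mem_ord (by
      rw [Pl.ord_mul _ ((map_ne_zero _).2 t0) (ru_aff h a).ne_zero, v]
      exact le_of_eq (neg_add_eq_zero.2 ha.symm).symm)) m
    rw [e, Int.cast_one] at this
    exact .inl (by linarith)

end Vale.Agent.P287D.Fg
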