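import Vale.Agent.P287D.Fg.Nf
import Vale.Agent.P287D.Fg.Med
import Vale.Agent.P287D.Rm.Gal

/-!
# P287D, row FU
-/

set_option linter.unusedSectionVars false

open Set
open Polynomial hiding map_ne_zero
open scoped IntermediateField
open Vale.Agent.P297Z Vale.Agent.P287D.Hd Vale.Agent.P287D.Tre Vale.Agent.P287D.Cb
  Vale.Agent.P287D.Hd.Ln

noncomputable section

namespace Vale.Agent.P287D.Fg

variable {L K : Type} [Field L] [Algebra ℂ L] [Field K] [Algebra ℂ K] [Algebra L K]
  [IsScalarTower ℂ L K] {t : K} {n M : ℕ} {X : BD K} {y : Fin n → L} {q : L[X]}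
  {E : Type} [Field E] [Algebra L E] [Algebra ℂ E] [IsScalarTower ℂ L E] [FiniteDimensional L E]

section unif

variable [IsGalois L E] {ι : Type} [Fintype ι] {s : ι → E} {m : ι → ℚ}

/-- uniform matchings -/
def Uf (s : ι → E) (m : ι → ℚ) (A : ι → ι → ℝ) : Prop :=
  Fm s (fun i => (m i : ℝ)) A ∧ ∀ i j, i ≠ j → (m i : ℝ) * m j / 4 ≤ A i j

theorem Wt.avg (w : Wt L s m) (h : ∀ i, (m i : ℝ) ≤ 1 / 5) : ∃ Z ∈ Prn L, ∀ (R : Pl E) (Q : Pl L),
    Ov L R Q → ∀ b : ℝ, (∀ A, Uf s m A → b ≤ vm (nv R Q) s A) → b ≤ Z Q := by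
  obtain ⟨A, f, u⟩ := exists_unif w.inj (fun i => (m i : ℝ)) (fun i => by exact_mod_cast w.nn i)
    (by exact_mod_cast w.sum) fun i => (h i).trans (by norm_num)
  obtain ⟨g, hg⟩ : ∃ g : ℝ, g = Fintype.card (E ≃ₐ[L] E) := ⟨_, rfl⟩
  have g0 : 0 < g := by
    rw [hg]
    exact_mod_cast Fintype.card_pos
  refine ⟨(2 * g)⁻¹ • ∑ i, ∑ j, A i j • dv (Algebra.norm L (s i - s j)),
    Submodule.smul_mem _ _ (sum_mem fun i _ => sum_mem fun j _ =>
      Submodule.smul_mem _ _ (dv_mem_Prn _)), fun R Q o b hb => ?_⟩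
  have e : ∀ i j, A i j * Q.ord (Algebra.norm L (s i - s j)) =
      ∑ γ : E ≃ₐ[L] E, A i j * nv R Q (γ (s i - s j)) := fun i j => by
    by_cases z : s i = s j
    · simp [f.diag i j z]
    · simp only [ord_norm o (sub_ne_zero.2 z), nv_cj, Finset.mul_sum]
  have k : ∀ γ : E ≃ₐ[L] E, 2 * b ≤ ∑ i, ∑ j, A i j * nv R Q (γ (s i - s j)) := fun γ => by
    obtain ⟨π, p, r⟩ := w.inv γ
    have r' : ∀ i, m (π.symm i) = m i := fun i => by rw [← r, π.apply_symm_apply]
    have := hb (fun i j => A (π.symm i) (π.symm j)) ⟨⟨fun i j => f.nn _ _, fun i j => f.symm _ _,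
      fun i j z => by rw [w.inj z, f.diag _ _ rfl], fun i => by
        rw [Equiv.sum_comp π.symm (A (π.symm i)), f.row, r']⟩,
      fun i j z => by rw [← r' i, ← r' j]; exact u _ _ (π.symm.injective.ne z)⟩
    rw [vm, ← Equiv.sum_comp π, le_div_iff₀' two_pos] at this
    refine this.trans (le_of_eq (Finset.sum_congr rfl fun i _ => ?_))
    rw [← Equiv.sum_comp π]
    simp only [π.symm_apply_apply, p, map_sub]
  have := Finset.sum_le_sum fun γ (_ : γ ∈ Finset.univ) => k γ
  rw [Finset.sum_const, Finset.card_univ, nsmul_eq_mul, ← hg, Finset.sum_comm] at this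
  simp only [Pi.smul_apply, Finset.sum_apply, dv_apply, smul_eq_mul, e]
  rw [le_inv_mul_iff₀ (by positivity), Finset.sum_congr rfl fun i _ => Finset.sum_comm]
  linarith

theorem Wt.far (w : Wt L s m) (h : ∀ i, (m i : ℝ) ≤ 1 / 5) {R : Pl E} {Q : Pl L} (o : Ov L R Q)
    {c : E} {r : ℝ} {a : L} {k : ℤ} (ha : Tre.rho (nv R Q) (c, r) (algebraMap L E a) = k)
    (mx : ∀ b : L, Tre.rho (nv R Q) (c, r) (algebraMap L E b) ≤ k) {A : ι → ι → ℝ}
    (u : Uf s m A) : (r - k) / 10 ≤ vm (nv R Q) s A + psi (nv R Q) s (fun i => m i) (c, r) := by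
  have v := vl_nv o
  have sm : ∑ i, (m i : ℝ) = 2 := by exact_mod_cast w.sum
  rcases le_or_gt r k with p | p
  · linarith [u.1.nonneg sm v.toUm (c, r)]
  have key : ∀ b : L, algebraMap L E b - c ≠ 0 ∧ nv R Q (algebraMap L E b - c) ≤ k := fun b => by
    have z : algebraMap L E b ≠ c := fun z => by
      have := mx b
      rw [z, rho_self _ (c, r)] at this
      exact this.not_gt p
    have := mx b
    rw [rho_ne (x := (c, r)) z, min_le_iff] at this
    exact ⟨sub_ne_zero.2 z, this.resolve_left p.not_ge⟩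
  have e1 : nv R Q (algebraMap L E a - c) = k := by
    rw [rho_ne (x := (c, r)) (sub_ne_zero.1 (key a).1)] at ha
    exact (min_eq_iff.1 ha).elim (fun z => absurd z.1 p.ne') And.left
  obtain ⟨τ, τ0, τk⟩ : ∃ τ : L, τ ≠ 0 ∧ nv R Q (algebraMap L E τ) = k :=
    ⟨Q.t ^ k, zpow_ne_zero k Q.t_ne, by rw [nv_map o, Q.ord_t_zpow]⟩
  have τ1 := (map_ne_zero (algebraMap L E)).2 τ0
  have ei0 := ei_pos o
  have dv : ∀ x : E, x ≠ 0 → (R.ord (x / algebraMap L E τ) : ℝ) = (nv R Q x - k) * ei R Q :=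
    fun x x0 => by
      rw [Pl.ord_div _ x0 τ1, ← τk, nv, nv, ← sub_div, div_mul_cancel₀ _ ei0.ne', Int.cast_sub]
  have u0 : (algebraMap L E a - c) / algebraMap L E τ ∈ R.ring := mem_ord (by
    have := dv _ (key a).1
    rw [e1, sub_self, zero_mul] at this
    exact_mod_cast this.ge)
  obtain ⟨σ, s1, s2⟩ := dec_of (L := L) R u0 fun z => by
    obtain ⟨b, b1, b2⟩ := mem_Rs.1 z
    rw [← sub_eq_zero, ← rd_sub u0 b1, Cb.rd_eq_zero (sub_mem u0 b1), mx_iff,
      show (algebraMap L E a - c) / algebraMap L E τ - algebraMap L E b =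
        (algebraMap L E (a - τ * b) - c) / algebraMap L E τ by
          rw [map_sub, map_mul]; field_simp; ring] at b2
    have := b2.resolve_left (div_ne_zero (key _).1 τ1)
    have : (0 : ℝ) < _ := (Int.cast_pos.2 this).trans_eq (dv _ (key _).1)
    linarith [(mul_pos_iff_of_pos_right ei0).1 this, (key (a - τ * b)).2]
  have u1 : σ ((algebraMap L E a - c) / algebraMap L E τ) ∈ R.ring :=
    mem_ord ((Pl.ord_nonneg_of_mem _ u0).trans_eq (s1 _).symm)
  obtain ⟨n0, n1⟩ := Ru.not_mx (sub_mem u0 u1) fun z =>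
    s2 (sub_eq_zero.1 ((rd_sub u0 u1).symm.trans ((Cb.rd_eq_zero (sub_mem u0 u1)).2 z))).symm
  rw [map_div₀, map_sub, σ.commutes, σ.commutes, ← sub_div, sub_sub_sub_cancel_left] at n0 n1
  have c0 : σ c - c ≠ 0 := fun z => n0 (by rw [z, zero_div])
  have e2 : nv R Q (σ c - c) = k := by
    have := dv _ c0
    rw [n1, Int.cast_zero, eq_comm, mul_eq_zero] at this
    linarith [this.resolve_right ei0.ne']
  obtain ⟨π, p1, p2⟩ := w.inv σ
  have e3 := psi_comp (nv R Q) (σ : E →+* E) (m := fun i => (m i : ℝ)) π p1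
    (fun i => by rw [p2]) (c, r)
  rw [show (fun a => nv R Q ((σ : E →+* E) a)) = nv R Q from
    funext fun a => congrArg (fun z : ℤ => (z : ℝ) / ei R Q) (s1 a)] at e3
  have := u.1.two sm v.toUm (fun i => by exact_mod_cast w.nn i) h w.inj u.2 (x := (c, r))
    (y := (σ c, r)) (l := 2 * (r - k)) (by
      rw [ds, jn, rho_ne (x := (c, r)) (sub_ne_zero.1 c0), e2, min_eq_right p.le, min_eq_left p.le]
      linarith) (by
      erw [← e3]
      linarith)
  linarith

end unif

variable {F : Type} [Field F]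
  [Algebra ℂ F] [Algebra K F] [Algebra E F] [Algebra L F] [IsScalarTower ℂ K F]
  [IsScalarTower ℂ E F] [IsScalarTower L K F] [IsScalarTower L E F] [FiniteDimensional K F]

/-- the retraction of a place of index one to the tree of `E` -/
theorem Pq.ret (hq : Pq X y t q M) (hL : FF L n) (h : Ru L t) (hy : AlgebraicIndependent ℂ y)
    (hM : 0 < M) (hs : (q.map (algebraMap L E)).Splits) (r : Ru E (algebraMap K F t)) {P : Pl K}
    {Q : Pl L} (o : Ov L P Q) (e₁ : ei P Q = 1) : ∃ R : Pl E, Ov L R Q ∧ ∃ (c : E) (ρ : ℝ),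
      (∀ b : L, Tre.rho (nv R Q) (c, ρ) (algebraMap L E b) = P.ord (t - algebraMap L K b)) ∧
      ρ ≤ kap (cw y t) P - kap y Q ∧ X P + (-kap y + (M : ℝ)⁻¹ • dv q.leadingCoeff) Q =
        psi (nv R Q) (Subtype.val : Rt q E → E) (fun i => wq q M (i : E)) (c, ρ) +
          (kap (cw y t) P - kap y Q - ρ) := by
  have : IsScalarTower ℂ L F := .of_algebraMap_eq fun x => by
    rw [IsScalarTower.algebraMap_apply ℂ K F, IsScalarTower.algebraMap_apply ℂ L K,
      ← IsScalarTower.algebraMap_apply L K F]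
  have hF : FF F (n + 1) := ff_up (h.ff hL)
  have hE : FF E n := ff_up hL
  have hy' := ind_ah (fun x => (IsScalarTower.algebraMap_apply ℂ L E x).symm) hy
  have c1 := IsScalarTower.algebraMap_eq L K F
  have c2 := IsScalarTower.algebraMap_eq L E F
  obtain ⟨S, a⟩ := Pb.up_fin (K' := F) P
  have l : Ov L S Q := by
    rw [Ov, c1]
    exact a.comp o
  obtain ⟨R, b⟩ := (tv_or_ov (L := E) hF S).resolve_left fun z =>
    l.not_trv fun f => by rw [c2]; exact z _
  have c : Ov L R Q := b.of_comp (c2 ▸ l)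
  have e : (ei S R : ℝ) * ei R Q = ei S P := by
    have u := a.ord (algebraMap L K Q.t)
    rw [← IsScalarTower.algebraMap_apply, IsScalarTower.algebraMap_apply L E F, b.ord,
      show P.ord (algebraMap L K Q.t) = 1 from e₁, mul_one] at u
    exact_mod_cast u
  have e1 := hur (h.ff hL) hF (fun x => (IsScalarTower.algebraMap_apply ℂ K F x).symm) a
    (cw_ind h hy)
  rw [show (fun i => algebraMap K F (cw y t i)) =
    cw (fun i => algebraMap L E (y i)) (algebraMap K F t) from funext fun i => Fin.cases rfl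
      (fun i => (IsScalarTower.algebraMap_apply L K F _).symm.trans
        (IsScalarTower.algebraMap_apply L E F _)) i, ← ei] at e1
  have e2 := hur hL hE (fun x => (IsScalarTower.algebraMap_apply ℂ L E x).symm) c hy
  rw [← ei] at e2
  let ρ : E → ℤ := fun i => S.ord (algebraMap K F t - algebraMap E F i)
  have bd : ∀ i, (ρ i : ℝ) ≤ ei S P * (kap (cw y t) P - kap y Q) := fun i => by
    have := k4p hE r hy' b (p := Polynomial.X - C i) (by simp)
    simp only [map_sub, aeval_X, aeval_C, derivative_X, derivative_C, sub_zero, map_one,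
      Pl.ord_one, Int.cast_zero, e2, ← mul_assoc, e] at this
    linarith
  obtain ⟨_, ⟨c₀, rfl⟩, mx⟩ := Int.exists_greatest_of_bdd (P := (· ∈ range ρ))
    ⟨_, fun _ ⟨i, z⟩ => z ▸ Int.le_floor.2 (bd i)⟩ ⟨_, 0, rfl⟩
  have p := ei_pos a
  have u := ((vl S).div p).toUm
  have nz : ∀ i : E, algebraMap K F t - algebraMap E F i ≠ 0 := fun i => (ru_aff r i).ne_zero
  have nv' : ∀ i, nv R Q i = S.ord (algebraMap E F i) / ei S P := fun i => by
    rw [b.ord, Int.cast_mul, ← e]
    exact (mul_div_mul_left _ _ (ei_pos b).ne').symm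
  have ne : ∀ i j : E, i ≠ j → algebraMap K F t - algebraMap E F i ≠
      algebraMap K F t - algebraMap E F j := fun i j z => by simpa using z
  have k := rho_of (v := nv R Q) (ρ := fun i => ρ i / ei S P) (c := c₀)
    (fun i => div_le_div_of_nonneg_right (by exact_mod_cast mx _ ⟨i, rfl⟩) p.le)
    (fun i j z => by
      have := u.add _ _ (neg_ne_zero.2 (nz i)) (nz j) (by
        rw [neg_add_eq_sub]; exact sub_ne_zero.2 (ne j i z.symm))
      rwa [u.neg, neg_add_eq_sub, sub_sub_sub_cancel_left, ← map_sub, ← nv'] at this)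
    fun i j z => by
      have := u.add _ _ (nz i) (neg_ne_zero.2 ((map_ne_zero (algebraMap E F)).2
        (sub_ne_zero.2 z.symm))) (by rw [map_sub, neg_sub, sub_add_sub_cancel]; exact nz j)
      rwa [u.neg, ← nv', map_sub, neg_sub, sub_add_sub_cancel] at this
  refine ⟨R, c, c₀, ρ c₀ / ei S P, fun b => ?_, (div_le_iff₀' p).2 (bd c₀),
    mul_left_cancel₀ p.ne' ?_⟩
  · rw [← k, div_eq_iff p.ne', mul_comm, ← Int.cast_mul, ei, ← a.ord, map_sub,
      ← IsScalarTower.algebraMap_apply, IsScalarTower.algebraMap_apply L E F]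
  · have z := hq.eq hL h hy hM hs r (show Ov K S P from a) b c
    rw [e1, e2, ← mul_assoc, e] at z
    rw [psi]
    simp only [← k, ← mul_div_assoc, ← Finset.sum_div]
    generalize (-kap y + (M : ℝ)⁻¹ • dv q.leadingCoeff) Q = g at z ⊢
    field_simp
    linarith

theorem exists_spl (h : Ru L t) (q0 : q ≠ 0) : ∃ (E F : Type) (_ : Field E) (_ : Algebra L E)
    (_ : Algebra ℂ E) (_ : IsScalarTower ℂ L E) (_ : FiniteDimensional L E) (_ : IsGalois L E)
    (_ : Field F) (_ : Algebra ℂ F) (_ : Algebra K F) (_ : Algebra E F) (_ : Algebra L F)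
    (_ : IsScalarTower ℂ K F) (_ : IsScalarTower ℂ E F) (_ : IsScalarTower L K F)
    (_ : IsScalarTower L E F) (_ : FiniteDimensional K F),
    (q.map (algebraMap L E)).Splits ∧ Ru E (algebraMap K F t) := by
  have : CharZero L := charZero_of_injective_algebraMap (algebraMap ℂ L).injective
  let F := (q.map (algebraMap L K)).SplittingField
  have sp : (q.map (algebraMap L F)).Splits := by
    have := SplittingField.splits (q.map (algebraMap L K))
    rwa [Polynomial.map_map, ← IsScalarTower.algebraMap_eq] at this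
  have : IsScalarTower ℂ L F := .of_algebraMap_eq fun x => by
    rw [IsScalarTower.algebraMap_apply ℂ K F, IsScalarTower.algebraMap_apply ℂ L K,
      ← IsScalarTower.algebraMap_apply L K F]
  let E := IntermediateField.adjoin L (q.rootSet F)
  have : IsSplittingField L E q := IntermediateField.adjoin_rootSet_isSplittingField sp
  have := IsSplittingField.finiteDimensional E q
  have := Normal.of_isSplittingField (E := E) q
  have : IsGalois L E := {}
  refine ⟨E, F, _, _, _, inferInstance, inferInstance, inferInstance, _, _, _, _, _, inferInstance,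
    .of_algebraMap_eq fun _ => rfl, inferInstance, inferInstance, inferInstance,
    IsSplittingField.splits E q,
    ((transcendental_algebraMap_iff (algebraMap K F).injective).2 h.1).extendScalars _,
    eq_top_iff.2 fun x _ => ?_⟩
  have k : ∀ p : L[X], algebraMap K F (aeval t p) ∈ E⟮algebraMap K F t⟯ := fun p => by
    rw [← aeval_algebraMap_apply, ← aeval_map_algebraMap E]
    exact IntermediateField.algebra_adjoin_le_adjoin _ _ (aeval_mem_adjoin_singleton _ _)
  let W : Subalgebra K F := ⟨E⟮algebraMap K F t⟯.toSubsemiring, fun f => by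
    obtain ⟨a, b, -, rfl⟩ := h.frac f
    rw [map_div₀]
    exact div_mem (H := E⟮algebraMap K F t⟯) (k a) (k b)⟩
  refine Algebra.adjoin_le (S := W) (fun z hz => ?_)
    ((SplittingField.adjoin_rootSet (q.map (algebraMap L K))).ge trivial)
  exact IntermediateField.algebraMap_mem _ (⟨z, IntermediateField.subset_adjoin _ _
    ((mem_rootSet_of_ne q0).2 (by simpa using aeval_eq_zero_of_mem_rootSet hz))⟩ : E)

theorem fu : FU := by
  refine ⟨1 / 20, by norm_num, fun L K _ _ _ _ _ _ n hL t h X hX b => ?_⟩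
  obtain ⟨y, hy, -⟩ := id hL
  obtain ⟨t, q, M, hM, h, hq, d⟩ := exists_pq' hL h hy hX fun P p => (b P p).2
  obtain ⟨E, F, _, _, _, _, _, _, _, _, _, _, _, _, _, _, _, _, hs, r⟩ := exists_spl h hq.1
  have m5 : ∀ a : E, (wq q M a : ℝ) ≤ 1 / 5 := fun a => by
    obtain ⟨P, p, e⟩ := hq.mult hL h hy (Algebra.IsIntegral.isIntegral a)
    have M0 : (0 : ℝ) < M := by exact_mod_cast hM
    rw [wq, Rat.cast_div, Rat.cast_natCast, Rat.cast_natCast, div_le_iff₀ M0]
    nlinarith [(b P p).1]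
  have w := wt_of hs hM d fun a => by exact_mod_cast (m5 a).trans (by norm_num : _ ≤ (1 : ℝ))
  have nf := hq.nf hL h hy hM hs r w
  have sm : ∑ i : Rt q E, (wq q M (i : E) : ℝ) = 2 := by exact_mod_cast w.sum
  obtain ⟨Z, z1, z2⟩ := w.avg fun i => m5 i
  have top : ∀ P Q, Ov L P Q → ei P Q = 1 →
      1 / 10 - X P ≤ (-kap y + (M : ℝ)⁻¹ • dv q.leadingCoeff + Z) Q ∨
      ∃ (a : L) (k : ℤ), Med L P (algebraMap L K (Q.t ^ k)⁻¹ * (t - algebraMap L K a)) ∧
        ∀ R : Pl E, Ov L R Q → X P + (-kap y + (M : ℝ)⁻¹ • dv q.leadingCoeff) Q =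
          psi (nv R Q) (Subtype.val : Rt q E → E) (fun i => wq q M (i : E))
            (algebraMap L E a, k) := fun P Q o e => by
    obtain ⟨a, k, a1, a2, a3⟩ := exists_top hL h hy o e
    obtain ⟨R, c, x, ρ, r1, r2, r3⟩ := hq.ret hL h hy hM hs r o e
    have r4 := r1 a
    rw [a1] at r4
    rcases a3 with a3 | ⟨a3, a4⟩
    · have := z2 R Q c _ fun A u => sub_le_iff_le_add.2
        (w.far (fun i => m5 i) c r4 (fun b => by rw [r1]; exact_mod_cast a2 b) u)
      exact .inl (by rw [Pi.add_apply]; linarith)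
    · refine .inr ⟨a, k, a4, fun R' c' => ?_⟩
      obtain rfl : ρ = k := by linarith [rho_le (nv R Q) (x, ρ) (algebraMap L E a)]
      obtain ⟨σ, hσ⟩ := conj_of c c'
      obtain ⟨π, p1, p2⟩ := w.inv σ
      have e3 := psi_comp (nv R' Q) (σ : E →+* E) (m := fun i : Rt q E => (wq q M (i : E) : ℝ)) π
        p1 (fun i => congrArg _ (p2 i)) (algebraMap L E a, k)
      rw [show (fun a => nv R' Q ((σ : E →+* E) a)) = nv R Q from funext fun a => by
        rw [nv, nv, ei_eq c c']; exact congrArg (fun z : ℤ => (z : ℝ) / ei R Q) (hσ a),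
        show (σ : E →+* E) (algebraMap L E a) = algebraMap L E a from σ.commutes a] at e3
      rw [r3, ← e3, psi, psi]
      simp only [(vl_nv c).toUm.rho_congr (x, (k : ℝ)) r4]
      linarith
  refine ⟨-kap y + (M : ℝ)⁻¹ • dv q.leadingCoeff + Z, ⟨?_, fun P Q o => ?_⟩,
    fun P P' Q o o' ne e e' dx => ?_, fun P Q o e i => ?_⟩
  · rw [add_right_comm]
    exact add_mem nf.prn z1
  · obtain ⟨R, c, x, e⟩ := nf.low P Q o
    have := z2 R Q c _ fun A u => neg_le_iff_add_nonneg.2 (u.1.nonneg sm (vl_nv c).toUm x)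
    have := mul_le_mul_of_nonneg_left this (ei_pos o).le
    rw [Pi.add_apply]
    linarith
  · rw [abs_le] at dx
    rcases top P Q o e with g | ⟨a, k, m, g⟩
    · linarith
    rcases top P' Q o' e' with g' | ⟨a', k', m', g'⟩
    · linarith [dx.1]
    obtain ⟨R, c⟩ := Pb.up_fin (K' := E) Q
    obtain ⟨j, hj, jv⟩ : ∃ j : ℤ, Tre.rho (nv R Q) (algebraMap L E a, k) (algebraMap L E a') = j ∧
        (a' = a ∧ j = k ∨ a' ≠ a ∧ j = min k (Q.ord (a' - a))) := by
      by_cases z : a' = a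
      · exact ⟨k, by rw [z, rho_self _ (_, _)], .inl ⟨z, rfl⟩⟩
      · exact ⟨_, by rw [rho_ne (x := (_, _)) ((algebraMap L E).injective.ne z), ← map_sub,
          nv_map c, Int.cast_min], .inr ⟨z, rfl⟩⟩
    have l : 1 ≤ ds (nv R Q) (algebraMap L E a, k) (algebraMap L E a', k') := by
      suffices 1 ≤ k + k' - 2 * min j k' by
        rw [ds, jn, hj]
        dsimp only
        exact_mod_cast this
      by_contra z
      obtain ⟨rfl, v⟩ : k = k' ∧ (a' - a) / Q.t ^ k ∈ Q.ring := by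
        rcases jv with ⟨z', e⟩ | ⟨z', e⟩
        · exact ⟨by omega, by simp [z']⟩
        · exact ⟨by omega, mem_ord (by
            rw [Pl.ord_div _ (sub_ne_zero.2 z') (zpow_ne_zero k Q.t_ne), Q.ord_t_zpow]; omega)⟩
      have := med_sub m ((o _).1 v)
      rw [show algebraMap L K (Q.t ^ k)⁻¹ * (t - algebraMap L K a) -
        algebraMap L K ((a' - a) / Q.t ^ k) = algebraMap L K (Q.t ^ k)⁻¹ * (t - algebraMap L K a') by
          rw [map_div₀, map_inv₀, map_sub]; ring] at this
      exact ne (med_uniq (ru_mul (ru_aff h a') (inv_ne_zero (zpow_ne_zero k Q.t_ne))) o o' this m')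
    have := z2 R Q c _ fun A u => sub_le_iff_le_add.2 (u.1.two sm (vl_nv c).toUm
      (fun i => by exact_mod_cast w.nn i) (fun i => m5 i) w.inj u.2 l
      (by rw [← g R c, ← g' R c]; linarith [dx.1]))
    rw [Pi.add_apply]
    linarith [g R c]
  · rcases top P Q o e with g | ⟨a, k, m, -⟩
    · linarith
    · exact absurd i (med_irr (ru_mul (ru_aff h a) (inv_ne_zero (zpow_ne_zero k Q.t_ne))) m)

end Vale.Agent.P287D.Fg
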