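import Vale.Agent.P287D.Fg.Nfs
import Vale.Agent.P287D.Hd.Ft3
import Vale.Agent.P287D.Ru.Pt
import Vale.Agent.P287D.Cb.Row

/-!
# P287D, row FG: Gauss places
-/

set_option linter.unusedSectionVars false

open Set
open Polynomial hiding map_ne_zero
open scoped IntermediateField
open Vale.Agent.P285N.Brep (jac Fr)
open Vale.Agent.P297Z Vale.Agent.P287D.Hd Vale.Agent.P287D.Tre Vale.Agent.P287D.Cb
  Vale.Agent.P287D.Hd.Ln

noncomputable section

namespace Vale.Agent.P287D.Fg

variable {J L : Type} [Field J] [Algebra ℂ J] [Field L] [Algebra ℂ L] [Algebra J L]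
  [IsScalarTower ℂ J L] {P : Pl L} {Q : Pl J} {z t : L} {n : ℕ}

theorem ru_aff (h : Ru J z) (c : J) : Ru J (z - algebraMap J L c) := by
  refine ⟨fun a => h.1 (by simpa using a.add (isAlgebraic_algebraMap c)), eq_top_iff.2 ?_⟩
  rw [← h.2, IntermediateField.adjoin_simple_le_iff]
  simpa using add_mem (IntermediateField.mem_adjoin_simple_self J (z - algebraMap J L c))
    (IntermediateField.algebraMap_mem _ c)

open Classical in
theorem med_ord (m : Med J P z) (a : J) : P.ord (z - algebraMap J L a) =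
    if a = 0 then 0 else min 0 (P.ord (algebraMap J L a)) := by
  have k : ∀ a : J, algebraMap J L a ∈ P.ring → P.ord (z - algebraMap J L a) = 0 := fun a p => by
    refine (Ru.not_mx (sub_mem m.1 p) fun q => m.2 ?_).2
    rw [← rd_eq_zero (sub_mem m.1 p), rd_sub m.1 p, sub_eq_zero] at q
    exact q ▸ isAlgebraic_algebraMap (⟨_, mem_Rs.2 ⟨a, p, rfl⟩⟩ : Rs J P)
  split_ifs with e
  · exact k a (by simp [e])
  by_cases p : algebraMap J L a ∈ P.ring
  · rw [k a p, min_eq_left (Pl.ord_nonneg_of_mem _ p)]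
  · have z0 := k 0 (by simp)
    obtain ⟨a0, a1⟩ := Rm.ord_neg_of_notMem P.toPlace p
    rw [map_zero, sub_zero] at z0
    have z1 : z ≠ 0 := fun e => m.2 (by rw [e, rd_zero']; exact isAlgebraic_zero)
    have := (Rm.ord_one_add_of_pos P.toPlace (x := -(z / algebraMap J L a))
      (by rw [Pl.ord_neg, Pl.ord_div _ z1 a0]; omega))
    rw [min_eq_right a1.le, show z - algebraMap J L a =
      -algebraMap J L a * (1 + -(z / algebraMap J L a)) by field_simp; ring,
      Pl.ord_mul _ (neg_ne_zero.2 a0) this.1, this.2, Pl.ord_neg, add_zero]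

theorem med_val (h : Ru J z) {F : Type} [Field F] [Algebra ℂ F] [Algebra L F] [Algebra J F]
    [IsScalarTower J L F] {R : Pl F} (m : Med J R (algebraMap L F z)) {f : L} (hf : f ≠ 0) :
    ∃ c : J, R.ord (algebraMap L F f) = R.ord (algebraMap J F c) := by
  have k : ∀ p : J[X], p ≠ 0 → ∃ c : J, c ≠ 0 ∧
      R.ord (algebraMap L F (aeval z p)) = R.ord (algebraMap J F c) := fun p p0 => by
    obtain ⟨c, u, c0, e, u1, u2, -⟩ := m.gauss p0
    obtain ⟨u3, u4⟩ := Ru.not_mx u1 fun q => u2 ((rd_eq_zero u1).2 q)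
    exact ⟨c, c0, by rw [← aeval_algebraMap_apply, e,
      Pl.ord_mul _ ((map_ne_zero _).2 c0) u3, u4, add_zero]⟩
  obtain ⟨a, b, b0, rfl⟩ := h.frac f
  have a0 : a ≠ 0 := fun e => hf (by simp [e])
  obtain ⟨c, c0, e⟩ := k a a0
  obtain ⟨d, d0, e'⟩ := k b b0
  exact ⟨c / d, by rw [map_div₀, map_div₀, Pl.ord_div _ ((map_ne_zero _).2 (h.ne a0))
    ((map_ne_zero _).2 (h.ne b0)), Pl.ord_div _ ((map_ne_zero _).2 c0) ((map_ne_zero _).2 d0),
    e, e']⟩

theorem exists_med (h : Ru J z) (Q : Pl J) : ∃ P : Pl L, Ov J P Q ∧ ei P Q = 1 ∧ Med J P z := by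
  obtain ⟨P, l, e, m, i, -⟩ := exists_gauss (y := fun _ : Unit => z)
    (algebraicIndependent_unique_type_iff.2 h.1) (by rw [range_const, h.2]) Q
  refine ⟨P, l, e, m (), fun a => ?_⟩
  let _ := l.κ.toAlgebra
  have r : ∀ x, l.κ x ∈ Rs J P := fun x => by
    obtain ⟨f, hf, rfl⟩ := rd_surj x
    exact mem_Rs.2 ⟨f, (l f).1 hf, l.isRd f hf⟩
  refine (algebraicIndependent_iff.2 i).transcendental () (a.of_ringHom_of_comp_eq
    (l.κ.codRestrict _ r) (RingHom.id _) ?_ (fun _ _ e => e) rfl)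
  rintro ⟨x, hx⟩
  obtain ⟨f, hf, rfl⟩ := mem_Rs.1 hx
  exact ⟨Q.rd f, Subtype.ext (l.isRd f ((l f).2 hf))⟩

theorem dt_eq (Λ : Fin (n + 1) → Derivation ℂ L L) (y : Fin n → J) (s : L) :
    dt (algebraMap J L) (fun i => Λ (eq1 n i)) y (fun _ => s) = jac Λ (cw y s) := by
  rw [jac, ← Matrix.det_submatrix_equiv_self (eq1 n), dt]
  refine congrArg _ (Matrix.ext fun i j => ?_)
  rcases j with j | j <;> rfl

theorem kap_med (hJ : FF J n) (h : Ru J z) {y : Fin n → J} (hy : AlgebraicIndependent ℂ y)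
    (o : Ov J P Q) (e : ei P Q = 1) (m : Med J P z) : kap (cw y z) P = kap y Q := by
  rcases n with _ | n
  · exact (no_pl hJ Q).elim
  obtain ⟨u, a⟩ := exists_ada hJ Q
  obtain ⟨D, hD⟩ := a.ad hJ
  obtain ⟨E, hE⟩ := fr_of (h.ff hJ) (cw_ind h a.indep)
  have j : jac E (cw y z) = algebraMap J L (jac D y) := by
    rw [← dt_eq, dt_chain (fun i => dr_of _) (fun i c => by
      rw [← IsScalarTower.algebraMap_apply]; exact Derivation.map_algebraMap _ c) hD.fr, dt_eq,
      jac_self hE, one_mul]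
  have c : ∀ c, P.rd (algebraMap J L (algebraMap ℂ J c)) = algebraMap ℂ P.κ c := fun c => by
    rw [← IsScalarTower.algebraMap_apply, rd_const]
  have b : Ada P (algebraMap J L Q.t) (cw u z) := by
    refine ⟨e, fun i => Fin.cases m.1 (fun i => (o _).1 (a.mem i)) i, ?_⟩
    have i1 : AlgebraicIndependent ℂ fun i => P.rd (algebraMap J L (u i)) := by
      simp only [← fun i => o.isRd _ (a.mem i)]
      exact ind_ah (fun x => by rw [← rd_const, o.isRd _ (Q.con x), c]) a.ind
    have := Ru.ind_cons' (C := (Rs J P).toIntermediateField fun x =>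
      mem_Rs.2 ⟨_, (o _).1 (Q.con x), (c x).symm⟩) i1
      (fun i => mem_Rs.2 ⟨_, (o _).1 (a.mem i), rfl⟩) m.2
    rwa [show (fun i => P.rd (cw u z i)) = Fin.cons (P.rd z) fun i => P.rd (algebraMap J L (u i))
      from funext fun i => Fin.cases rfl (fun _ => rfl) i]
  have k : cw (Fin.cons Q.t u : Fin (n + 1) → J) z =
      (Fin.cons (algebraMap J L Q.t) (cw u z) : Fin (n + 2) → L) ∘ Equiv.swap 0 1 := by
    funext i
    refine Fin.cases rfl (fun i => Fin.cases rfl (fun i => ?_) i) i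
    rw [Function.comp_apply, Equiv.swap_apply_of_ne_of_ne (Fin.succ_ne_zero _)
      (Fin.succ_succ_ne_one _)]
    rfl
  rw [kap_chg hE ((jac_ne_iff hE _).2 (cw_ind h hy)), Pi.add_apply, k, kap_perm (h.ff hJ),
    b.kap (h.ff hJ), zero_add, j, dv_apply, o.ord, kap_eq hD]
  rw [ei] at e
  rw [e, one_mul]

/-- the Gauss place of the disc with centre `c` and radius `ord b` -/
theorem exists_disc (hJ : FF J n) (h : Ru J t) {y : Fin n → J} (hy : AlgebraicIndependent ℂ y)
    (Q : Pl J) (c : J) {b : J} (hb : b ≠ 0) : ∃ P : Pl L, Ov J P Q ∧ ei P Q = 1 ∧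
      Med J P (algebraMap J L b⁻¹ * (t - algebraMap J L c)) ∧
      kap (cw y t) P = kap y Q + Q.ord b ∧ ∀ a : J, (P.ord (t - algebraMap J L a) : ℝ) =
        Tre.rho (fun a => (Q.ord a : ℝ)) (c, Q.ord b) a := by
  have r := ru_mul (ru_aff h c) (inv_ne_zero hb)
  obtain ⟨P, o, e, m⟩ := exists_med r Q
  have v : ∀ a, P.ord (algebraMap J L a) = Q.ord a := fun a => by
    rw [ei] at e
    rw [o.ord, e, one_mul]
  have b0 := (map_ne_zero (algebraMap J L)).2 hb
  refine ⟨P, o, e, m, ?_, fun a => ?_⟩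
  · obtain ⟨d, d0, d1, -, d2⟩ := exists_der hJ h hy
    have k : d (algebraMap J L b⁻¹ * (t - algebraMap J L c)) = algebraMap J L b⁻¹ := by
      rw [Derivation.leibniz, map_sub, d0, d0, d1]
      simp
    have := congrFun (d2 _ (k.trans_ne ((map_ne_zero _).2 (inv_ne_zero hb)))).2 P
    rw [kap_med hJ r hy o e m, k, Pi.add_apply, dv_apply, v, Pl.ord_inv] at this
    rw [this]
    push_cast
    ring
  · have k : t - algebraMap J L a = algebraMap J L b * (algebraMap J L b⁻¹ * (t - algebraMap J L c) -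
        algebraMap J L ((a - c) / b)) := by
      rw [map_div₀, map_inv₀, map_sub]
      field_simp
      ring
    rw [k, Pl.ord_mul _ b0 (ru_aff r _).ne_zero, med_ord m, v, v]
    by_cases p : a = c
    · rw [p, rho_self _ (c, _)]
      simp
    · have q := sub_ne_zero.2 p
      rw [if_neg (div_ne_zero q hb), rho_ne (x := (c, _)) p, Pl.ord_div _ q hb]
      push_cast
      rw [add_min]
      simp

end Vale.Agent.P287D.Fg
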