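import Vale.Agent.P287D.Fg.Gau
import Vale.Agent.P287D.Hd.Deg
import Vale.Agent.P287D.Hd.Cm

/-!
# P287D, row FG: the normal form of a fibre form
-/

set_option linter.unusedSectionVars false

open Set
open Polynomial hiding map_ne_zero
open scoped IntermediateField
open Vale.Agent.P297Z Vale.Agent.P287D.Hd Vale.Agent.P287D.Tre Vale.Agent.P287D.Cb
  Vale.Agent.P287D.Hd.Ln

noncomputable section

namespace Vale.Agent.P287D.Fg

variable {L K : Type} [Field L] [Algebra ℂ L] [Field K] [Algebra ℂ K] [Algebra L K]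
  [IsScalarTower ℂ L K] {t : K} {n M : ℕ} {X : BD K} {y : Fin n → L} {q : L[X]}

theorem ru_inv (h : Ru L t) : Ru L t⁻¹ := by
  refine ⟨fun a => h.1 (by simpa using a.inv), eq_top_iff.2 ?_⟩
  rw [← h.2, IntermediateField.adjoin_simple_le_iff]
  simpa using inv_mem (IntermediateField.mem_adjoin_simple_self L t⁻¹)

/-- `X` is the divisor of `dt dy / q(t) ^ (1 / M)` -/
def Pq (X : BD K) (y : Fin n → L) (t : K) (q : L[X]) (M : ℕ) : Prop :=
  q ≠ 0 ∧ ∀ P, M * X P = M * kap (cw y t) P - P.ord (aeval t q)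

theorem exists_pq (hL : FF L n) (h : Ru L t) (hy : AlgebraicIndependent ℂ y) {g : K}
    (g0 : g ≠ 0) (e : (M : ℝ) • (X - cn K (n + 1)) = dv g) (up : ∀ P, Tv L P → X P ≤ 0) :
    ∃ q, Pq X y t q M := by
  obtain ⟨f, f0, k⟩ := cn_kap (h.ff hL) (cw_ind h hy)
  obtain ⟨a, b, b0, r⟩ := h.frac (g * f ^ M)
  have u0 := mul_ne_zero g0 (pow_ne_zero M f0)
  have a0 : a ≠ 0 := fun z => u0 (by simp [r, z])
  obtain ⟨a, b, c, co, rfl, rfl⟩ := UniqueFactorizationMonoid.exists_reduced_factors a a0 b
  rw [map_mul, map_mul, mul_div_mul_left _ _ (h.ne (left_ne_zero_of_mul a0))] at r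
  replace a0 := right_ne_zero_of_mul a0
  replace b0 := right_ne_zero_of_mul b0
  have v : ∀ P : Pl K, M * X P = M * kap (cw y t) P + P.ord (aeval t a) - P.ord (aeval t b) :=
    fun P => by
      have e1 := congrFun e P
      have e2 := congrArg (fun x => (P.ord x : ℝ)) r
      simp only [Pl.ord_mul _ g0 (pow_ne_zero M f0), Pl.ord_pow, Pl.ord_div _ (h.ne a0) (h.ne b0)]
        at e2
      simp only [k, Pi.smul_apply, Pi.sub_apply, Pi.add_apply, dv_apply, smul_eq_mul] at e1
      push_cast at e2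
      linarith
  have u : IsUnit a := by
    by_contra w
    obtain ⟨p, p1, p2, p3⟩ := exists_monic_irreducible_factor a w
    obtain ⟨P, hP⟩ := exists_pl h p2 p1
    have := v P
    rw [kap_fin hL h hy hP.tv hP.mem, hP.ord_of fun d => p2.not_isUnit (co p3 d)] at this
    have o : (0 : ℝ) < P.ord (aeval t a) := by
      exact_mod_cast (mx_iff.1 ((hP.mx a).2 p3)).resolve_left (h.ne a0)
    have := mul_nonneg (Nat.cast_nonneg (α := ℝ) M) (neg_nonneg.2 (up P hP.tv))
    push_cast at *
    linarith
  obtain ⟨c, c0, rfl⟩ := Polynomial.isUnit_iff.1 u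
  have c1 := (map_ne_zero (algebraMap L K)).2 c0.ne_zero
  refine ⟨C c⁻¹ * b, mul_ne_zero (C_ne_zero.2 (inv_ne_zero c0.ne_zero)) b0, fun P => ?_⟩
  rw [v, map_mul, aeval_C, aeval_C, map_inv₀, Pl.ord_mul _ (inv_ne_zero c1) (h.ne b0), Pl.ord_inv]
  push_cast
  ring

theorem exists_pq' (hL : FF L n) (h : Ru L t) (hy : AlgebraicIndependent ℂ y) (hX : Pf (n + 1) X)
    (up : ∀ P, Tv L P → X P ≤ 0) :
    ∃ t q M, 0 < M ∧ Ru L t ∧ Pq X y t q M ∧ q.natDegree = 2 * M := by
  obtain ⟨M, g, hM, g0, e⟩ := hX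
  have : CharZero L := charZero_of_injective_algebraMap (algebraMap ℂ L).injective
  obtain ⟨q, q0, hq⟩ := exists_pq hL h hy g0 e up
  obtain ⟨c, hc⟩ := exists_eval_ne_zero_of_natDegree_lt_card q q0
    ((Cardinal.natCast_lt_aleph0).trans_le (Cardinal.aleph0_le_mk L))
  have r := ru_inv (ru_aff h c)
  obtain ⟨p, p0, hp⟩ := exists_pq hL r hy g0 e up
  refine ⟨_, p, M, hM, r, ⟨p0, hp⟩, ?_⟩
  obtain ⟨P, hP⟩ := exists_pl h (irreducible_X_sub_C c) (monic_X_sub_C c)
  have o := hP.ord h
  rw [map_sub, aeval_X, aeval_C] at o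
  have k : (t - algebraMap L K c)⁻¹ ∉ P.ring := fun k => by
    have := Pl.ord_nonneg_of_mem _ k
    rw [Pl.ord_inv] at this
    omega
  have a := hq P
  rw [hp, kap_inf hL r hy hP.tv k, ord_inf r (fp_inf r hP.tv k) p0, kap_fin hL h hy hP.tv hP.mem,
    hP.ord_of fun d => hc (dvd_iff_isRoot.1 d)] at a
  push_cast at a
  exact_mod_cast (by linarith : (p.natDegree : ℝ) = 2 * M)

variable {E : Type} [Field E] [Algebra L E]

theorem Pq.mult (hq : Pq X y t q M) (hL : FF L n) (h : Ru L t) (hy : AlgebraicIndependent ℂ y)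
    {a : E} (ha : IsIntegral L a) : ∃ P, Tv L P ∧
      (rootMultiplicity a (q.map (algebraMap L E)) : ℝ) ≤ -(M * X P) := by
  have : CharZero L := charZero_of_injective_algebraMap (algebraMap ℂ L).injective
  obtain ⟨P, hP⟩ := exists_pl h (minpoly.irreducible ha) (minpoly.monic ha)
  obtain ⟨k, r, r0, e, o⟩ := hP.split h hq.1
  refine ⟨P, hP.tv, ?_⟩
  rw [hq.2, kap_fin hL h hy hP.tv hP.mem, o, hP.ord h]
  have p0 := Polynomial.map_ne_zero (f := algebraMap L E) (minpoly.ne_zero ha)
  have pw : ∀ k : ℕ, rootMultiplicity a ((minpoly L a).map (algebraMap L E) ^ k) ≤ k := fun k => by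
    induction k with
    | zero => simp
    | succ k ih =>
      rw [pow_succ, rootMultiplicity_mul (mul_ne_zero (pow_ne_zero _ p0) p0)]
      exact add_le_add ih (rootMultiplicity_le_one_of_separable
        (minpoly.irreducible ha).separable.map a)
  have q0 := Polynomial.map_ne_zero (f := algebraMap L E) hq.1
  rw [e, Polynomial.map_mul, Polynomial.map_pow] at q0 ⊢
  rw [rootMultiplicity_mul q0, rootMultiplicity_eq_zero (p := r.map _) fun z =>
    r0 (minpoly.dvd L a (by rwa [IsRoot, eval_map_algebraMap] at z))]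
  simpa using pw k

open Classical in
/-- the roots of `q` -/
abbrev Rt (q : L[X]) (E : Type) [Field E] [Algebra L E] : Type := (q.aroots E).toFinset

/-- the weights of the roots -/
def wq (q : L[X]) (M : ℕ) (a : E) : ℚ := rootMultiplicity a (q.map (algebraMap L E)) / M

theorem wt_of (hs : (q.map (algebraMap L E)).Splits) (hM : 0 < M)
    (d : q.natDegree = 2 * M) (le : ∀ a : E, wq q M a ≤ 1) :
    Wt L (Subtype.val : Rt q E → E) fun i => wq q M (i : E) := by
  classical
  have M0 : (M : ℚ) ≠ 0 := by exact_mod_cast hM.ne'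
  refine ⟨Subtype.val_injective, fun i => by unfold wq; positivity, fun i => le _, ?_, fun γ => ?_⟩
  · rw [Finset.sum_coe_sort _ (wq q M)]
    simp only [wq, ← Finset.sum_div, ← count_roots]
    rw [← Nat.cast_sum, Multiset.toFinset_sum_count_eq, ← hs.natDegree_eq_card_roots,
      natDegree_map, d]
    push_cast
    field_simp
  · refine ⟨(γ : E ≃ E).subtypeEquiv fun a => ?_, fun _ => rfl, fun i => ?_⟩
    · simp [aeval_algHom_apply]
    · rw [wq, wq, eq_rootMultiplicity_map (f := (γ : E →+* E)) γ.injective (i : E),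
        Polynomial.map_map]
      exact congrArg (fun φ => ((rootMultiplicity (γ i) (q.map φ) : ℕ) : ℚ) / M)
        (RingHom.ext fun a => (γ.commutes a).symm)

variable [Algebra ℂ E] [IsScalarTower ℂ L E] [FiniteDimensional L E] {F : Type} [Field F]
  [Algebra ℂ F] [Algebra K F] [Algebra E F] [Algebra L F] [IsScalarTower ℂ K F]
  [IsScalarTower ℂ E F] [IsScalarTower L K F] [IsScalarTower L E F] [FiniteDimensional K F]

/-- the order of the form at a place upstairs -/
theorem Pq.eq (hq : Pq X y t q M) (hL : FF L n) (h : Ru L t) (hy : AlgebraicIndependent ℂ y)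
    (hM : 0 < M) (hs : (q.map (algebraMap L E)).Splits) (r : Ru E (algebraMap K F t)) {S : Pl F}
    {P : Pl K} {R : Pl E} {Q : Pl L} (a : Ov K S P) (b : Ov E S R) (c : Ov L R Q) :
    ei S P * (X P + 1) = kap (cw (fun i => algebraMap L E (y i)) (algebraMap K F t)) S + 1 -
      ei S R * (kap (fun i => algebraMap L E (y i)) R + 1) +
      ei S R * ei R Q * (1 - (-kap y + (M : ℝ)⁻¹ • dv q.leadingCoeff) Q) -
      ∑ i : Rt q E, (wq q M (i : E) : ℝ) * S.ord (algebraMap K F t - algebraMap E F i) := by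
  classical
  have M0 : (M : ℝ) ≠ 0 := by exact_mod_cast hM.ne'
  have e1 := hur (h.ff hL) (ff_up (h.ff hL))
    (fun x => (IsScalarTower.algebraMap_apply ℂ K F x).symm) a (cw_ind h hy)
  rw [show (fun i => algebraMap K F (cw y t i)) =
    cw (fun i => algebraMap L E (y i)) (algebraMap K F t) from funext fun i => Fin.cases rfl
      (fun i => (IsScalarTower.algebraMap_apply L K F _).symm.trans
        (IsScalarTower.algebraMap_apply L E F _)) i] at e1
  have e2 := hur hL (ff_up hL) (fun x => (IsScalarTower.algebraMap_apply ℂ L E x).symm) c hy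
  have l0 := leadingCoeff_ne_zero.2 hq.1
  have nz : ∀ i : E, algebraMap K F t - algebraMap E F i ≠ 0 := fun i => (ru_aff r i).ne_zero
  have e3 : algebraMap K F (aeval t q) = algebraMap E F (algebraMap L E q.leadingCoeff) *
      ∏ i : Rt q E, (algebraMap K F t - algebraMap E F i) ^
        rootMultiplicity (i : E) (q.map (algebraMap L E)) := by
    rw [← aeval_algebraMap_apply, ← aeval_map_algebraMap E, Finset.prod_coe_sort _ fun i : E =>
      (algebraMap K F t - algebraMap E F i) ^ rootMultiplicity i (q.map (algebraMap L E))]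
    conv_lhs => rw [hs.eq_prod_roots, Finset.prod_multiset_map_count]
    simp [count_roots, map_prod]
  have e4 := congrArg (fun x => (S.ord x : ℝ)) e3
  simp only [a.ord (aeval t q)] at e4
  rw [Pl.ord_mul _ ((map_ne_zero _).2 ((map_ne_zero _).2 l0))
    (Finset.prod_ne_zero_iff.2 fun i _ => pow_ne_zero _ (nz _)),
    S.ord_prod _ fun i _ => pow_ne_zero _ (nz _), b.ord, c.ord] at e4
  simp only [Pl.ord_pow] at e4
  have e5 := hq.2 P
  simp only [wq, ei, Pi.add_apply, Pi.neg_apply, Pi.smul_apply, dv_apply, smul_eq_mul,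
    Rat.cast_div, Rat.cast_natCast, div_mul_eq_mul_div, ← Finset.sum_div]
  push_cast at e4
  rw [e1, e2, eq_sub_iff_add_eq'.2 e4.symm, show X P = kap (cw y t) P - P.ord (aeval t q) / M by
    field_simp; linarith]
  field_simp
  ring

theorem Pq.nf (hq : Pq X y t q M) (hL : FF L n) (h : Ru L t) (hy : AlgebraicIndependent ℂ y)
    (hM : 0 < M) (hs : (q.map (algebraMap L E)).Splits) (r : Ru E (algebraMap K F t))
    (w : Wt L (Subtype.val : Rt q E → E) fun i => wq q M (i : E)) :
    Nf n X (Subtype.val : Rt q E → E) (fun i => wq q M (i : E))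
      (-kap y + (M : ℝ)⁻¹ • dv q.leadingCoeff) := by
  have : IsScalarTower ℂ L F := .of_algebraMap_eq fun x => by
    rw [IsScalarTower.algebraMap_apply ℂ K F, IsScalarTower.algebraMap_apply ℂ L K,
      ← IsScalarTower.algebraMap_apply L K F]
  have hF : FF F (n + 1) := ff_up (h.ff hL)
  have hE : FF E n := ff_up hL
  have hy' := ind_ah (fun x => (IsScalarTower.algebraMap_apply ℂ L E x).symm) hy
  have c1 := IsScalarTower.algebraMap_eq L K F
  have c2 := IsScalarTower.algebraMap_eq L E F
  refine ⟨w, ?_, fun P Q o => ?_, fun Q R c k o => ?_⟩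
  · obtain ⟨f, -, e⟩ := cn_kap hL hy
    rw [e, show -kap y + (M : ℝ)⁻¹ • dv q.leadingCoeff + (kap y + dv f) =
      (M : ℝ)⁻¹ • dv q.leadingCoeff + dv f by abel]
    exact add_mem (Submodule.smul_mem _ _ (dv_mem_Prn _)) (dv_mem_Prn _)
  · obtain ⟨S, a⟩ := Pb.up_fin (K' := F) P
    have l : Ov L S Q := by
      rw [Ov, c1]
      exact a.comp o
    obtain ⟨R, b⟩ := (tv_or_ov (L := E) hF S).resolve_left fun z =>
      l.not_trv fun f => by rw [c2]; exact z _
    have c : Ov L R Q := b.of_comp (c2 ▸ l)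
    have e : (ei S P : ℝ) * ei P Q = ei S R * ei R Q := by
      have u := a.ord (algebraMap L K Q.t)
      rw [← IsScalarTower.algebraMap_apply, IsScalarTower.algebraMap_apply L E F, b.ord] at u
      exact_mod_cast u.symm
    let ρ : E → ℤ := fun i => S.ord (algebraMap K F t - algebraMap E F i)
    have bd : ∀ i, (ρ i : ℝ) ≤ kap (cw (fun i => algebraMap L E (y i)) (algebraMap K F t)) S + 1 -
        ei S R * (kap (fun i => algebraMap L E (y i)) R + 1) := fun i => by
      have := k4p hE r hy' b (p := Polynomial.X - C i) (by simp)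
      simp only [map_sub, aeval_X, aeval_C, derivative_X, derivative_C, sub_zero, map_one,
        Pl.ord_one, Int.cast_zero] at this
      linarith
    obtain ⟨_, ⟨c₀, rfl⟩, mx⟩ := Int.exists_greatest_of_bdd (P := (· ∈ range ρ))
      ⟨_, fun _ ⟨i, z⟩ => z ▸ Int.le_floor.2 (bd i)⟩ ⟨_, 0, rfl⟩
    have p1 := ei_pos a
    have p2 := mul_pos (ei_pos b) (ei_pos c)
    have u := ((vl S).div p2).toUm
    have nz : ∀ i : E, algebraMap K F t - algebraMap E F i ≠ 0 := fun i => (ru_aff r i).ne_zero
    have nv' : ∀ i, nv R Q i = S.ord (algebraMap E F i) / (ei S R * ei R Q) := fun i => by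
      rw [b.ord, Int.cast_mul]
      exact (mul_div_mul_left _ _ (ei_pos b).ne').symm
    have ne : ∀ i j : E, i ≠ j → algebraMap K F t - algebraMap E F i ≠
        algebraMap K F t - algebraMap E F j := fun i j z => by simpa using z
    have k := rho_of (v := nv R Q) (ρ := fun i => ρ i / (ei S R * ei R Q)) (c := c₀)
      (fun i => div_le_div_of_nonneg_right (by exact_mod_cast mx _ ⟨i, rfl⟩) p2.le)
      (fun i j z => by
        have := u.add _ _ (neg_ne_zero.2 (nz i)) (nz j) (by
          rw [neg_add_eq_sub]; exact sub_ne_zero.2 (ne j i z.symm))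
        rwa [u.neg, neg_add_eq_sub, sub_sub_sub_cancel_left, ← map_sub, ← nv'] at this)
      fun i j z => by
        have := u.add _ _ (nz i) (neg_ne_zero.2 ((map_ne_zero (algebraMap E F)).2
          (sub_ne_zero.2 z.symm))) (by rw [map_sub, neg_sub, sub_add_sub_cancel]; exact nz j)
        rwa [u.neg, ← nv', map_sub, neg_sub, sub_add_sub_cancel] at this
    refine ⟨R, c, (c₀, ρ c₀ / (ei S R * ei R Q)), le_of_mul_le_mul_left ?_ p1⟩
    rw [hq.eq hL h hy hM hs r a b c, ← mul_assoc, e, psi]
    simp only [← k, ← mul_div_assoc, ← Finset.sum_div, ← sub_div]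
    rw [mul_add, mul_div_cancel₀ _ p2.ne']
    linarith [bd c₀]
  · have t0 := zpow_ne_zero k Q.t_ne
    obtain ⟨S, b, e, m, e1, e2⟩ := exists_disc hE r hy' R (algebraMap L E c)
      ((map_ne_zero (algebraMap L E)).2 t0)
    obtain ⟨P, a⟩ := exists_ov (L := K) hF S
    have l : Ov L S Q := by
      rw [Ov, c2]
      exact b.comp o
    have o' : Ov L P Q := a.of_comp (c1 ▸ l)
    have p := ei_pos o
    have m' : Med L S (algebraMap K F (algebraMap L K (Q.t ^ k)⁻¹ * (t - algebraMap L K c))) := by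
      rw [map_mul, map_sub, ← IsScalarTower.algebraMap_apply, ← IsScalarTower.algebraMap_apply,
        IsScalarTower.algebraMap_apply L E F, IsScalarTower.algebraMap_apply L E F c, map_inv₀]
      have s : Rs L S ≤ Rs E S := fun x hx => by
        obtain ⟨f, f1, f2⟩ := mem_Rs.1 hx
        rw [IsScalarTower.algebraMap_apply L E F] at f1 f2
        exact mem_Rs.2 ⟨_, f1, f2⟩
      exact ⟨m.1, fun z => m.2 (z.ringHom_of_comp_eq (Subfield.inclusion s) (RingHom.id _)
        (Subfield.inclusion s).injective rfl)⟩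
    obtain ⟨d, hd⟩ := med_val (ru_mul (ru_aff h c) (inv_ne_zero t0)) m' P.t_ne
    have e3 : ei S P = ei R Q := by
      have u := a.ord (algebraMap L K Q.t)
      have u' := b.ord (algebraMap L E Q.t)
      rw [← IsScalarTower.algebraMap_apply] at u u'
      rw [ei] at e
      rw [e, one_mul] at u'
      rw [l.ord, u] at hd
      have v : P.ord (algebraMap L K Q.t) * Q.ord d = 1 :=
        mul_left_cancel₀ a.e_pos.ne' (by rw [← mul_assoc, ← hd, mul_one])
      rw [ei, ei, ← u', u, Int.eq_one_of_mul_eq_one_right o'.e_pos.le v, mul_one]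
    refine ⟨P, o', mul_left_cancel₀ p.ne' ?_⟩
    have z := hq.eq hL h hy hM hs r a b o
    have v : (k : ℝ) = R.ord (algebraMap L E (Q.t ^ k)) / ei R Q := by
      rw [← nv, nv_map o, Q.ord_t_zpow]
    have := psi_div (fun a => (R.ord a : ℝ)) p (Subtype.val : Rt q E → E)
      (fun i => wq q M (i : E)) (algebraMap L E c, R.ord (algebraMap L E (Q.t ^ k)))
    rw [e3, e, e1] at z
    rw [z, v, show nv R Q = fun a => (R.ord a : ℝ) / ei R Q from rfl, this, mul_add (ei R Q : ℝ),
      mul_div_cancel₀ _ p.ne', psi]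
    simp only [e2]
    push_cast
    ring

theorem nfs : NFS := by
  intro L K _ _ _ _ _ _ n hL t h X hX b
  obtain ⟨y, hy, -⟩ := id hL
  obtain ⟨t, q, M, hM, h, hq, d⟩ := exists_pq' hL h hy hX fun P p => (b P p).2
  have : CharZero L := charZero_of_injective_algebraMap (algebraMap ℂ L).injective
  let F := (q.map (algebraMap L K)).SplittingField
  have sp : (q.map (algebraMap L F)).Splits := by
    have := SplittingField.splits (q.map (algebraMap L K))
    rwa [Polynomial.map_map, ← IsScalarTower.algebraMap_eq] at this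
  have : IsScalarTower ℂ L F := .of_algebraMap_eq fun x => by
    rw [IsScalarTower.algebraMap_apply ℂ K F, IsScalarTower.algebraMap_apply ℂ L K,
      ← IsScalarTower.algebraMap_apply L K F]
  let E := IntermediateField.adjoin L (q.rootSet F)
  have : IsSplittingField L E q := IntermediateField.adjoin_rootSet_isSplittingField sp
  have := IsSplittingField.finiteDimensional E q
  have := Normal.of_isSplittingField (E := E) q
  have : IsGalois L E := {}
  have r : Ru E (algebraMap K F t) := by
    refine ⟨((transcendental_algebraMap_iff (algebraMap K F).injective).2 h.1).extendScalars _,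
      eq_top_iff.2 fun x _ => ?_⟩
    have k : ∀ p : L[X], algebraMap K F (aeval t p) ∈ E⟮algebraMap K F t⟯ := fun p => by
      rw [← aeval_algebraMap_apply, ← aeval_map_algebraMap E]
      exact IntermediateField.algebra_adjoin_le_adjoin _ _ (aeval_mem_adjoin_singleton _ _)
    let W : Subalgebra K F := ⟨E⟮algebraMap K F t⟯.toSubsemiring, fun f => by
      obtain ⟨a, b, -, rfl⟩ := h.frac f
      rw [map_div₀]
      exact div_mem (H := E⟮algebraMap K F t⟯) (k a) (k b)⟩
    refine Algebra.adjoin_le (S := W) (fun z hz => ?_)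
      ((SplittingField.adjoin_rootSet (q.map (algebraMap L K))).ge trivial)
    exact IntermediateField.algebraMap_mem _ (⟨z, IntermediateField.subset_adjoin _ _
      ((mem_rootSet_of_ne hq.1).2 (by simpa using aeval_eq_zero_of_mem_rootSet hz))⟩ : E)
  have hs := IsSplittingField.splits E q
  have : IsScalarTower ℂ E F := .of_algebraMap_eq fun _ => rfl
  refine ⟨E, _, _, _, inferInstance, inferInstance, inferInstance, _, _, _, _, _,
    hq.nf hL h hy hM hs r (wt_of hs hM d fun a => ?_)⟩
  obtain ⟨P, p, e⟩ := hq.mult hL h hy (Algebra.IsIntegral.isIntegral a)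
  have M0 : (0 : ℝ) < M := by exact_mod_cast hM
  rw [wq, div_le_one (by exact_mod_cast hM)]
  exact_mod_cast e.trans (by nlinarith [(b P p).1] : _ ≤ (M : ℝ))

theorem fg : FG := fg_of nfs deg

end Vale.Agent.P287D.Fg
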