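import Vale.Agent.P287D.Fg.Cor
import Vale.Agent.P287D.Gm.Ffs

/-!
# P287D, row FG from the normal form of fibre forms
-/

open Set
open scoped IntermediateField
open Vale.Agent.P297Z Vale.Agent.P287D.Hd Vale.Agent.P287D.Tre

noncomputable section

namespace Vale.Agent.P287D.Fg

section ru

variable {L K : Type} [Field L] [Algebra ℂ L] [Field K] [Algebra ℂ K] [Algebra L K]
  [IsScalarTower ℂ L K] {t : K} {n : ℕ}

omit [Algebra ℂ L] [Algebra ℂ K] [IsScalarTower ℂ L K] in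
theorem ru_trdeg (h : Ru L t) : Algebra.trdeg L K = 1 := by
  have a : AlgebraicIndependent L ![t] := algebraicIndependent_iff_transcendental.2 h.1
  have b : IsTranscendenceBasis L ![t] := a.isTranscendenceBasis_iff_isAlgebraic.2
    (IntermediateField.isAlgebraic_adjoin_iff_top.1 (by
      rw [Matrix.range_cons, Matrix.range_empty, union_empty, h.2]
      exact ⟨fun x => isAlgebraic_algebraMap (⟨x, trivial⟩ : (⊤ : IntermediateField L K))⟩))
  simpa using b.cardinalMk_eq_trdeg.symm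

theorem ru_ff (hL : FF L n) (h : Ru L t) : FF K (n + 1) := by
  classical
  have := hL.ess
  have : Algebra.EssFiniteType L K :=
    IntermediateField.fg_top_iff.1 ⟨{t}, by rw [Finset.coe_singleton, h.2]⟩
  have := Algebra.EssFiniteType.comp ℂ L K
  refine Gm.ff_of_ess ?_
  rw [← trdeg_add_eq ℂ L, hL.trdeg, ru_trdeg h]
  norm_cast

end ru

/-- the normal form of `X` -/
structure Nf {L K E ι : Type} [Field L] [Algebra ℂ L] [Field K] [Algebra ℂ K] [Algebra L K]
    [Field E] [Algebra ℂ E] [Algebra L E] [Fintype ι] (n : ℕ) (X : BD K) (s : ι → E) (m : ι → ℚ)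
    (g : BD L) : Prop where
  wt : Wt L s m
  prn : g + cn L n ∈ Prn L
  low : ∀ P Q, Ov L P Q → ∃ R : Pl E, Ov L R Q ∧
    ∃ x, ei P Q * (1 - g Q + psi (nv R Q) s (fun i => m i) x) ≤ X P + 1
  gau : ∀ (Q : Pl L) (R : Pl E) (c : L) (k : ℤ), Ov L R Q → ∃ P : Pl K, Ov L P Q ∧
    X P + 1 = 1 - g Q + psi (nv R Q) s (fun i => m i) (algebraMap L E c, k)

/-- **NFS**: existence of the normal form -/
def NFS : Prop := For2 fun L K _ _ _ _ _ _ => ∀ n, FF L n → ∀ t : K, Ru L t → ∀ X : BD K,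
  Pf (n + 1) X → (∀ P, Tv L P → -1 ≤ X P ∧ X P ≤ 0) →
  ∃ (E : Type) (_ : Field E) (_ : Algebra ℂ E) (_ : Algebra L E) (_ : IsScalarTower ℂ L E)
    (_ : FiniteDimensional L E) (_ : IsGalois L E) (ι : Type) (_ : Fintype ι) (s : ι → E)
    (m : ι → ℚ) (g : BD L), Nf n X s m g

theorem fg_of (nfs : NFS) (deg : DEG) : FG := by
  intro J L K _ _ _ _ _ _ _ _ _ _ _ _ _ n hJ z t hz ht X hX lo up
  have tv : ∀ (P : Pl K) (a : J), algebraMap L K (algebraMap J L a) ∈ P.ring →
      algebraMap J K a ∈ P.ring := fun P a h => by rwa [IsScalarTower.algebraMap_apply J L K]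
  obtain ⟨E, _, _, _, _, _, _, ι, _, s, m, g, h⟩ := nfs L K (n + 1) (ru_ff hJ hz) t ht X hX
    fun P p => ⟨le_trans (by norm_num) (lo P fun a => tv P a (p _)), up P p⟩
  obtain ⟨δ, d1, d0, d2, -⟩ := deg J L n hJ z hz
  obtain ⟨Z, z1, z2, z3⟩ := h.wt.exists_prn (H := {Q | Tv J Q}) d1 d0 d2
    (ε := 1 / 25) (by norm_num)
  refine ⟨g + Z, ⟨?_, fun P Q o => ?_⟩, fun Q q => ?_⟩
  · rw [add_right_comm]
    exact add_mem h.prn z1
  · obtain ⟨R, r, x, e⟩ := h.low P Q o
    have := mul_nonneg (ei_pos o).le (z2 R Q r x)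
    simp only [Pi.add_apply]
    linarith
  · obtain ⟨R, r, c, k, e⟩ := z3 Q q
    obtain ⟨P, o, f⟩ := h.gau Q R c k r
    have := lo P fun a => tv P a ((o _).1 (q a))
    simp only [Pi.add_apply]
    linarith

end Vale.Agent.P287D.Fg
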